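import Vale.Agent.P167N.NStm
import Vale.Agent.P167Q.YS3

/-! P167N: the upper bound for negative charges. -/

open Finset Filter Topology MeasureTheory
open scoped Classical

namespace Vale.Agent.P167Q.N

open Vale.Agent.P167Q.W hiding nr
open Vale.Agent.P167 (Q.ea Q.eb Q.fx Q.f0 Q.FKm Pc.chi Pc.Loc)

namespace N3x

theorem alg {l a d ε θ m s n b b1 b2 g C2 C3 L CR E x : ℝ} (a0 : 0 < a) (d0 : 0 < d)
    (m0 : 0 ≤ m) (t0 : 0 ≤ s) (n0 : 0 ≤ n) (hn : n = g * (m + s)) (d1 : d ≤ -θ / 4)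
    (d2 : d * (2 * l * a * g) ≤ ε / 2) (A5 : b2 ≤ 2 * l * a * n + CR) (A7 : -θ * b1 ≤ E)
    (s4 : C2 + C3 + L + d * CR + E + ε / 2 * s ≤ ε / 2 * m)
    (key : x + (-(a * (θ / 2 + d) ^ 2 * n) - (θ / 2 + d) * b2 - C2) ≤ C3 + L +
      (-(a * θ ^ 2 * (m + s)) - θ * (b + b1) + (-(a * (θ / 2) ^ 2 * n) - θ / 2 * b2))) :
    x ≤ -(a * θ ^ 2 * m) - θ * b + ε * m := by
  have s0 : 0 ≤ d * (-θ - d) := mul_nonneg d0.le (by linarith)
  have s1 : (θ / 2 + d) ^ 2 ≤ (θ / 2) ^ 2 := by linarith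
  have s2 : a * (θ / 2 + d) ^ 2 * n ≤ a * (θ / 2) ^ 2 * n :=
    mul_le_mul_of_nonneg_right (mul_le_mul_of_nonneg_left s1 a0.le) n0
  have s3 : d * b2 ≤ ε / 2 * (m + s) + d * CR := by
    have h1 := mul_le_mul_of_nonneg_left A5 d0.le
    have h2 := mul_le_mul_of_nonneg_right d2 (add_nonneg m0 t0)
    rw [hn] at h1
    linarith
  have s5 : 0 ≤ a * θ ^ 2 * s := by positivity
  linarith

open P167.ZR2 in
theorem s3 {l a : ℝ} {w : ℝ → ℝ} {FF : ℝ → ℕ → ℕ → ℝ} {be pp : ℕ → ℕ → ℝ} (l0 : 0 < l)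
    (a0 : 0 < a) (wlt : ∀ x y, -l ≤ x → x < y → y ≤ 0 → w y < w x) (w0 : w 0 = 1)
    (wle : ∀ x, w x ≤ 2)
    (mono : ∀ (s t : ℝ) J m, 0 ≤ s → s ≤ t → 0 ≤ FF s J m ∧ FF s J m ≤ FF t J m)
    (one : ∀ J m, FF 1 J m = 1) (pp0 : ∀ J m, 0 ≤ pp J m)
    (add : ∀ J m s, be J (m + s) = be J m + be (J + m) s)
    (h1 : ∃ C : ℝ, ∀ m : ℕ, 4 ≤ m → ∀ᶠ J in atTop, be J m ≤ 2 * l * a * m + C)
    (hu : ∀ θ p : ℝ, 1 < p → ∃ C : ℝ, ∀ m : ℕ, 4 ≤ m → ∀ᶠ J in atTop,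
      Real.exp (-(a * θ ^ 2 * m) - θ * be J m - C) ≤ FF (|w θ| ^ p) J m ^ (1 / p))
    (hl : L2 l a w FF be pp)
    (hk : ∃ C : ℝ, ∃ J₀, ∀ J ≥ J₀, ∀ m, 1 ≤ m → FF 16 J m ≤ Real.exp (C * m))
    (hd : ∃ α > 0, ∃ C : ℝ, ∃ J₀, ∀ J ≥ J₀, ∀ m : ℕ, pp J m ≤ Real.exp (C - α * m))
    (θ : ℝ) (θ1 : -l < θ) (θ2 : θ < 0) (ε : ℝ) (hε : 0 < ε) :
    ∃ p₀ > (1 : ℝ), ∀ p > (1 : ℝ), p ≤ p₀ → ∃ m₀ : ℕ, ∀ m ≥ m₀, ∀ᶠ J in atTop,
      FF (w θ ^ (1 / p)) J m ≤ Real.exp (-(a * θ ^ 2 * m) - θ * be J m + ε * m) := by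
  obtain ⟨s, s4, hl⟩ := hl
  obtain ⟨CK, J0, hK⟩ := hk
  obtain ⟨α, α0, Cd, J1, hD⟩ := hd
  obtain ⟨CR, hR⟩ := h1
  obtain ⟨γ, hγ⟩ := exists_nat_ge ((|CK| + 1) / α)
  rw [div_le_iff₀ α0] at hγ
  have γ0 : 0 < (γ : ℝ) := by
    have : 0 < (γ : ℝ) * α := by linarith [abs_nonneg CK]
    exact (mul_pos_iff_of_pos_right α0).1 this
  have γ1 : 1 ≤ γ := Nat.cast_pos.1 γ0
  obtain ⟨d, d0, d1, d2⟩ : ∃ d : ℝ, 0 < d ∧ d ≤ -θ / 4 ∧ d * (2 * l * a * γ) ≤ ε / 2 := by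
    refine ⟨min (-θ / 4) (ε / 2 / (2 * l * a * γ)),
      lt_min (by linarith) (by positivity), min_le_left _ _, ?_⟩
    rw [← le_div_iff₀ (by positivity)]
    exact min_le_right _ _
  have w2 : w (θ / 2 + d) < w (θ / 2) := wlt _ _ (by linarith) (by linarith) (by linarith)
  have w3 : 1 < w θ := w0 ▸ wlt _ _ (by linarith) θ2 le_rfl
  have w4 : 1 < w (θ / 2 + d) := w0 ▸ wlt _ _ (by linarith) (by linarith) le_rfl
  obtain ⟨p₀, hp₀, hsub⟩ := mem_nhdsGT_iff_exists_Ioc_subset.1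
    ((ev_p (by linarith) w2).and (Ioc_mem_nhdsGT (show (1 : ℝ) < 2 by norm_num)))
  refine ⟨p₀, hp₀, fun p p3 pp0' => ?_⟩
  obtain ⟨p2, -, p4⟩ := hsub ⟨p3, pp0'⟩
  obtain ⟨C2, hC2⟩ := hu (θ / 2 + d) p p3
  obtain ⟨C3, hC3⟩ := hl θ p θ1 θ2 p3
  obtain ⟨m1, hm1⟩ := exists_nat_ge (Cd + 4 * (|C3| + Real.log 8))
  obtain ⟨m2, hm2⟩ := exists_nat_ge
    ((C2 + C3 + Real.log 8 + d * CR + -θ * (2 * l * a * s + CR) + ε / 2 * s) / (ε / 2))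
  rw [div_le_iff₀ (by positivity)] at hm2
  refine ⟨max 4 (max m1 m2), fun n hm => ?_⟩
  have q4 : 4 ≤ n := (le_max_left _ _).trans hm
  have q1 : (m1 : ℝ) ≤ (n + s : ℕ) := Nat.cast_le.2
    ((((le_max_left _ _).trans (le_max_right _ _)).trans hm).trans (Nat.le_add_right _ _))
  have q2 : (m2 : ℝ) ≤ n := Nat.cast_le.2 (((le_max_right _ _).trans (le_max_right _ _)).trans hm)
  have q5 : 4 ≤ γ * (n + s) := (show 4 ≤ n + s by omega).trans (Nat.le_mul_of_pos_left _ γ1)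
  have m0 : (0 : ℝ) ≤ (n + s : ℕ) := Nat.cast_nonneg _
  filter_upwards [(tendsto_add_atTop_nat (n + s)).eventually (hC2 (γ * (n + s)) q5),
    hC3 n (γ * (n + s)) q4 q5, eventually_ge_atTop J0, eventually_ge_atTop J1,
    (tendsto_add_atTop_nat (n + s)).eventually (hR (γ * (n + s)) q5),
    (tendsto_add_atTop_nat n).eventually (hR s s4)] with J A2 A3 A4 A6 A5 A7
  have f1 : 1 ≤ FF (w θ ^ (1 / p)) J n :=
    (one J n).symm.trans_le (mono 1 _ J n zero_le_one (Real.one_le_rpow w3.le (by positivity))).2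
  have e0 : Real.exp (Real.log (FF (w θ ^ (1 / p)) J n)) = FF (w θ ^ (1 / p)) J n :=
    Real.exp_log (by linarith)
  obtain ⟨e2, f2⟩ := low (FF := fun t => FF t (J + (n + s)) (γ * (n + s)))
    (fun s t h h' => (mono s t _ _ h h').2) (one _ _) w4.le p3 p2 A2
  have hP : pp (J + (n + s)) (γ * (n + s)) ≤ Real.exp (Cd - (|CK| + 1) * (n + s : ℕ)) := by
    refine (hD _ (by omega) _).trans (Real.exp_le_exp.2 (sub_le_sub_left ?_ _))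
    rw [Nat.cast_mul, ← mul_assoc, mul_comm α]
    exact mul_le_mul_of_nonneg_right hγ m0
  have t0 : 0 < w θ := zero_lt_one.trans w3
  obtain ⟨G0, G1⟩ := mono (w θ ^ (2 * p)) 16 J (n + s) (Real.rpow_nonneg t0.le _)
    (ww_p t0 (wle _) p3 p4)
  obtain ⟨hP2, hT⟩ := tail p3 p4 G0 (pp0 _ _) m0 (G1.trans (hK J A4 _ (by omega))) hP
    (hm1.trans q1)
  have key := fin f1 f2 hP2 p3 p4 A3 hT e0.le e2
  rw [add J n s, Nat.cast_add n s] at key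
  rw [← e0, Real.exp_le_exp]
  exact alg a0 d0 (Nat.cast_nonneg n) (Nat.cast_nonneg s) (Nat.cast_nonneg _)
    (by rw [Nat.cast_mul, Nat.cast_add]) d1 d2 A5 (mul_le_mul_of_nonneg_left A7 (by linarith))
    (hm2.trans ((mul_comm _ _).trans_le
      (mul_le_mul_of_nonneg_left q2 (show 0 ≤ ε / 2 by positivity)))) key

end N3x

theorem n3_pf {r a : ℝ} {μ : Measure Cf} (h : An r μ a) : N_3 μ a := by
  intro θ θ1 θ2 ε hε
  have pi0 := Real.pi_pos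
  have a1 := h.a1
  have hc : Real.cos (Real.pi / 3) ≤ Real.cos a :=
    Real.cos_le_cos_of_nonneg_of_le_pi h.a0 (by linarith) a1
  rw [Real.cos_pi_div_three] at hc
  have c0 : 0 < Real.cos a := by linarith
  refine N3x.s3 (l := a) (by linarith) ?_ (fun x y h1 h2 h3 => ?_) ?_ (fun x => ?_) h.r0.mono
    h.r0.one (fun J m => (h.r0.arm 1 J m zero_le_one).1) (fun J m s => ?_) h.r1.1 h.u1 h.l2
    h.kmid h.dec θ θ1 θ2 ε hε
  · have := Real.log_pos (show (1 : ℝ) < 2 by norm_num)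
    exact div_pos this (mul_pos (by positivity) (by linarith))
  · exact div_lt_div_of_pos_right (Real.cos_lt_cos_of_nonneg_of_le_pi (by linarith)
      (by linarith) (by linarith)) c0
  · rw [wq, add_zero, div_self c0.ne']
  · rw [wq, div_le_iff₀ c0]
    linarith [Real.cos_le_one (a + x)]
  · unfold bem
    rw [add_assoc]
    ring

end Vale.Agent.P167Q.N
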