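import Vale.Agent.P167N.NStm
import Vale.Agent.P167U.UCl
import Vale.Agent.P167.ZLrm

open Finset Filter Topology MeasureTheory
open scoped Classical

namespace Vale.Agent.P167Q.N

open Vale.Agent.P167Q.W hiding nr
open Vale.Agent.P167 (Q.ea Q.eb Q.fx Q.f0 Q.FKm Pc.chi Pc.Loc)

namespace NAnnx

theorem sub {z : Sq} (hz : z ∈ box 1) {n b N : ℕ} (hb : b ≤ N) :
    P167.Q.zb 0 b \ P167.Q.zb 0 (n + 1) ⊆ bz z (N + 1) \ bz z n := by
  intro x hx
  rw [Finset.mem_sdiff, P167.Q.mem_zb, P167.Q.mem_zb] at hx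
  rw [Finset.mem_sdiff, mem_bz, mem_bz]
  rw [mem_box] at hz
  simp only [Prod.fst_zero, Prod.snd_zero] at hx
  omega

theorem arm {z : Sq} (hz : z ∈ box 1) {n b N : ℕ} (hb : b ≤ N) (h1 : 1 ≤ b) (ω : Cf)
    (h : ω ∈ AZ true z (n + 1) N) : P167.Q.Ar 0 (n + 1 + 1) (b - 1) ω := by
  obtain ⟨x, hx, he, hn⟩ := h
  obtain ⟨y, hy, hy'⟩ := Set.not_subset.1 hn
  have he' : Even (x.1 + x.2) := of_decide_eq_true he
  rw [mem_box] at hz
  refine ⟨x, ?_, y, fun hc => hy' ?_, ?_⟩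
  · rw [mem_bz] at hx
    rw [P167.Q.mem_zb]
    simp only [Prod.fst_zero, Prod.snd_zero]
    omega
  · rw [P167.Q.mem_zb] at hc
    rw [Finset.mem_coe, mem_bz]
    simp only [Prod.fst_zero, Prod.snd_zero] at hc
    omega
  · exact Relation.EqvGen.mono (fun _ _ k => Or.inl k) _ _ (U.UClx.bwd ω x y he' hy).2

end NAnnx

theorem nann_pf {r a : ℝ} {μ : Measure Cf} (h : An r μ a) : N_ann μ := by
  obtain ⟨K, a₀, c, hK, ha₀, hc, hA⟩ := h.ann
  have hr := h.hr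
  refine ⟨2 * K, a₀, c, hc, by omega, fun n hn z hz H hH => ?_⟩
  obtain ⟨⟨V, hV, hd⟩, H0⟩ := hH
  have hb : K * (n + 1) ≤ 2 * K * n := by
    have : n + 1 ≤ 2 * n := by omega
    calc K * (n + 1) ≤ K * (2 * n) := Nat.mul_le_mul_left K this
      _ = 2 * K * n := by ring
  have hb1 : 1 ≤ K * (n + 1) := Nat.mul_pos (by omega) (by omega)
  have hD : P167.Q.Dep ((P167.Q.zb 0 (K * (n + 1)) \ P167.Q.zb 0 (n + 1) : Finset (ℤ × ℤ)) :
      Set (ℤ × ℤ))ᶜ H := by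
    refine fun ω ω' k => hV ω ω' fun v hv => k v fun hc => ?_
    exact Finset.disjoint_left.1 hd hv (NAnnx.sub hz hb hc)
  have lH : Pc.Loc H := ⟨V, hV⟩
  have l : Pc.Loc fun ω => H ω * Pc.chi (Cut (bz z (2 * K * n + 1)) (bz z n) ω) := by
    refine ⟨V ∪ bz z (2 * K * n + 1), fun ω ω' k => ?_⟩
    have e1 := hV ω ω' fun v hv => k v (Finset.mem_union_left _ hv)
    have e2 := h.det.lc (bz z (2 * K * n + 1)) (bz z n) ω ω'
      fun v hv => k v (Finset.mem_union_right _ hv)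
    dsimp only at e2 ⊢
    rw [e1, e2]
  refine le_of_tendsto_of_tendsto ((P167.Q.ZLrm.lim h.fk lH).const_mul c)
    (P167.Q.ZLrm.lim h.fk l) ?_
  filter_upwards [eventually_ge_atTop (P167.Q.zb 0 (K * (n + 1)))] with S hS
  have mono : ∀ A B : Cf → ℝ, (∀ ω, A ω ≤ B ω) → Q.f0 r S A ≤ Q.f0 r S B :=
    (h.lin _ _ r Q.ea Q.eb P167.Q.nil S (fun _ => false) (by linarith)).2.2.2.1
  refine (hA (n + 1) (by omega) S hS H H0 hD).trans (mono _ _ fun ω => ?_)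
  refine mul_le_mul_of_nonneg_left (P167.Q.ZLrm.chi_mono fun hn' => ?_) (H0 ω)
  exact h.det.az z n (2 * K * n) ω fun k => hn' (NAnnx.arm hz hb hb1 ω k)

end Vale.Agent.P167Q.N
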