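import Vale.Agent.P167N.NStm
import Vale.Agent.P167Q.YCnt

/-! P167N: counting the clusters round the origin by blocks of scales with gaps. -/

open Finset Filter Topology MeasureTheory
open scoped Classical

namespace Vale.Agent.P167Q.N

open Vale.Agent.P167Q.W hiding nr
open Vale.Agent.P167 (Q.ea Q.eb Q.fx Q.f0 Q.FKm Pc.chi Pc.Loc)

namespace NCntx

open Vale.Agent.P167Q.YCntx (step zero_mem)

theorem big (hb : Base) (hg : X_geo) {ω : Cf} {C : Set Sq} {s r : ℕ} {c : Sq}
    (h0 : (0 : Sq) ∈ fill ω C) (hc : c ∈ C) (hr : c ∉ box r) (hs : s ≤ r) : ¬Sml C s := fun hS => by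
  have := hg.sml ω C s 0 hS h0 hc
  rw [bz_zero] at this
  exact hr (hb.bas.mono _ _ hs this)

theorem pw {J m s i i' : ℕ} (h : i < i') :
    2 ^ (J + i * (m + s) + m) ≤ 2 ^ (J + i' * (m + s)) := by
  refine Nat.pow_le_pow_right two_pos ?_
  have := Nat.mul_le_mul_right (m + s) (Nat.succ_le_of_lt h)
  rw [Nat.succ_mul] at this
  omega

/-- the family counted at level `i` -/
noncomputable def F (J m s : ℕ) (ω : Cf) (i : ℕ) : Finset (Set Sq) :=
  (cls ω (box (2 ^ (J + i * (m + s) + m) - 1))).filter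
    (IsMid (3 * 2 ^ (J + i * (m + s))) (2 ^ (J + i * (m + s) + m) - 1) ω)

/-- the exceptional scales -/
def KK (J m s t : ℕ) : Finset ℕ :=
  (range t ×ˢ range (s + 1)).image (fun q => J + q.1 * (m + s) + m + q.2) ∪
    (range (m + s)).image fun j => J + t * (m + s) + (j + 1)

theorem lower (hb : Base) {J m s t n : ℕ} (hn : 2 ^ (J + t * (m + s)) ≤ n) (ω : Cf) :
    MG J m s t ω ≤ nN n ω := by
  have e : MG J m s t ω = ((range t).biUnion (F J m s ω)).card := by
    rw [card_biUnion]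
    · rfl
    · have key : ∀ i i', i < i' → Disjoint (F J m s ω i) (F J m s ω i') := by
        intro i i' hi
        rw [disjoint_left]
        intro C h1 h2
        obtain ⟨a1, -⟩ := mem_filter.1 h1
        obtain ⟨y, hy, rfl⟩ := mem_image.1 a1
        have := pw (J := J) (m := m) (s := s) hi
        exact (mem_filter.1 h2).2.2.1 y (hb.bas.mono _ _ (by omega) hy) (hb.bas.self ω y)
      intro i _ i' _ hne
      rcases lt_or_gt_of_ne hne with hi | hi
      · exact key i i' hi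
      · exact (key i' i hi).symm
  rw [e]
  refine card_le_card fun C hC => ?_
  obtain ⟨i, hi, hC⟩ := mem_biUnion.1 hC
  obtain ⟨a1, a2, -, a3⟩ := mem_filter.1 hC
  have := pw (J := J) (m := m) (s := s) (mem_range.1 hi)
  have hs := hb.bas.mono (2 ^ (J + i * (m + s) + m) - 1) n (by omega)
  exact mem_filter.2 ⟨image_subset_image hs a1, fun x hx => hs (a2 hx), a3 0 (zero_mem _)⟩

theorem cases (hb : Base) (hg : X_geo) {J m s t n : ℕ} (hn : n < 2 ^ (J + (t + 1) * (m + s)))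
    {ω : Cf} {C : Set Sq} (h1 : C ∈ cls ω (box n)) (h0 : (0 : Sq) ∈ fill ω C) :
    C ∈ cls ω (box (3 * 2 ^ J)) ∨ (∃ i < t, C ∈ F J m s ω i) ∨
      ∃ k ∈ KK J m s t, (∃ x ∈ box (3 * 2 ^ k), x ∈ C) ∧ ¬Sml C (2 ^ k / 2) := by
  obtain ⟨y, hy, rfl⟩ := mem_image.1 h1
  have hs := hb.bas.self ω y
  by_cases a0 : ∃ x ∈ box (3 * 2 ^ (J + 0 * (m + s))), x ∈ clus ω y
  · obtain ⟨x, a1, a2⟩ := a0
    rw [zero_mul, add_zero] at a1
    exact Or.inl (mem_image.2 ⟨x, a1, hb.bas.cleq ω y x a2⟩)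
  right
  by_cases at' : ∃ x ∈ box (3 * 2 ^ (J + t * (m + s))), x ∈ clus ω y
  · obtain ⟨i, hi, b1, b2⟩ :=
      step (fun i => ∃ x ∈ box (3 * 2 ^ (J + i * (m + s))), x ∈ clus ω y) a0 t at'
    have b3 : ∀ x ∈ box (3 * 2 ^ (J + i * (m + s))), x ∉ clus ω y :=
      fun x hx hx' => b1 ⟨x, hx, hx'⟩
    by_cases hsub : clus ω y ⊆ box (2 ^ (J + i * (m + s) + m) - 1)
    · exact Or.inl ⟨i, hi, mem_filter.2 ⟨mem_image.2 ⟨y, hsub hs, rfl⟩, hsub, b3,
        fun x hx => hg.side ω _ _ b3 0 (zero_mem _) x hx h0⟩⟩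
    · obtain ⟨c, c1, c2⟩ := Set.not_subset.1 hsub
      have mem : ∀ j < s + 1, J + i * (m + s) + m + j ∈ KK J m s t := fun j hj =>
        mem_union_left _ (mem_image.2 ⟨(i, j), mem_product.2 ⟨mem_range.2 hi, mem_range.2 hj⟩, rfl⟩)
      by_cases p0 : ∃ x ∈ box (3 * 2 ^ (J + i * (m + s) + m + 0)), x ∈ clus ω y
      · refine Or.inr ⟨_, mem 0 (Nat.succ_pos s), p0, big hb hg h0 c1 c2 ?_⟩
        rw [add_zero]
        have : 0 < 2 ^ (J + i * (m + s) + m) := by positivity
        omega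
      · have ps : ∃ x ∈ box (3 * 2 ^ (J + i * (m + s) + m + s)), x ∈ clus ω y := by
          rw [show J + i * (m + s) + m + s = J + (i + 1) * (m + s) by ring]
          exact b2
        obtain ⟨j, hj, d1, d2⟩ :=
          step (fun j => ∃ x ∈ box (3 * 2 ^ (J + i * (m + s) + m + j)), x ∈ clus ω y) p0 s ps
        refine Or.inr ⟨_, mem (j + 1) (Nat.succ_lt_succ hj), d2,
          big hb hg h0 hs (fun hx => d1 ⟨y, hx, hs⟩) ?_⟩
        rw [← add_assoc, pow_succ, Nat.mul_div_cancel _ two_pos]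
        omega
  · have b0 : ¬y ∈ box (3 * 2 ^ (J + t * (m + s) + 0)) := fun hx => at' ⟨y, hx, hs⟩
    have bm : y ∈ box (3 * 2 ^ (J + t * (m + s) + (m + s))) := by
      rw [add_mul, one_mul, ← add_assoc] at hn
      exact hb.bas.mono _ _ (by omega) hy
    obtain ⟨j, hj, b1, b2⟩ :=
      step (fun j => y ∈ box (3 * 2 ^ (J + t * (m + s) + j))) b0 (m + s) bm
    refine Or.inr ⟨J + t * (m + s) + (j + 1),
      mem_union_right _ (mem_image.2 ⟨j, mem_range.2 hj, rfl⟩), ⟨y, b2, hs⟩,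
      big hb hg h0 hs b1 ?_⟩
    rw [← add_assoc, pow_succ, Nat.mul_div_cancel _ two_pos]
    omega

end NCntx

open NCntx in
theorem ncnt_pf {r a : ℝ} {μ : Measure Cf} (h : An r μ a) : N_cnt := by
  intro J m s t n _ hn1 hn2
  refine ⟨fun ω ω' hw => ?_, KK J m s t, ?_, fun k hk => ?_, fun ω => ⟨lower h.base hn1 ω, ?_⟩⟩
  · refine sum_congr rfl fun i hi => ?_
    have := pw (J := J) (m := m) (s := s) (mem_range.1 hi)
    have h3 : 0 < 2 ^ (J + i * (m + s)) := by positivity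
    refine h.dep.mid _ _ (by omega) ω ω' fun v hv => hw v ?_
    exact h.base.bas.mono _ _ (by omega) (mem_sdiff.1 hv).1
  · refine (card_union_le _ _).trans (add_le_add (card_image_le.trans ?_) (card_image_le.trans ?_))
    · rw [card_product, card_range, card_range]
    · rw [card_range]
  · rcases mem_union.1 hk with hk | hk
    · obtain ⟨q, -, rfl⟩ := mem_image.1 hk
      omega
    · obtain ⟨q, -, rfl⟩ := mem_image.1 hk
      omega
  · have a1 : ((range t).biUnion (F J m s ω)).card ≤ MG J m s t ω := card_biUnion_le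
    have a2 : (cls ω (box (3 * 2 ^ J))).card ≤ (box (3 * 2 ^ J)).card := card_image_le
    refine le_trans ?_ (add_le_add_left (add_le_add a1 a2) _)
    refine le_trans ?_ (add_le_add_left (card_union_le _ _) _)
    refine le_trans (card_le_card fun C hC => ?_) (card_union_le _ _)
    obtain ⟨c1, c2, c3⟩ := mem_filter.1 hC
    rcases cases h.base h.geo hn2 c1 c3 with d | ⟨i, hi, d⟩ | d
    · exact mem_union_left _ (mem_union_right _ d)
    · exact mem_union_left _ (mem_union_left _ (mem_biUnion.2 ⟨i, mem_range.2 hi, d⟩))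
    · exact mem_union_right _ (mem_filter.2 ⟨c1, c2, d⟩)

end Vale.Agent.P167Q.N
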