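import Vale.Agent.P167W.ZStm
import Vale.Agent.P167Q.YStm

/-! P167N: the nesting spectrum of the random-cluster model. See `skel/P167N/PROOF.md`. -/

open Finset Relation Filter Topology MeasureTheory
open scoped Classical BigOperators

namespace Vale.Agent.P167Q.N

open Vale.Agent.P167Q.W hiding nr
open Vale.Agent.P167 (Q.ea Q.eb Q.fx Q.f0 Q.FKm Pc.chi Pc.Loc)

/-- what is already proved -/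
structure An (r : ℝ) (μ : Measure Cf) (a : ℝ) : Prop where
  hr : 1 ≤ r
  fk : Q.FKm r μ
  a0 : 0 ≤ a
  a1 : a ≤ Real.pi / 3
  base : Base
  geo : X_geo
  dep : X_dep
  sh : X_sh
  y : Y_0
  mod : Mod μ
  az : W_az
  bd : W_bd μ a
  lin : P167.Q.T_lin
  vb : V_base
  det : V_det
  rep : V_rep
  lift : V_lift
  ann : ∃ (K a₀ : ℕ) (c : ℝ), 2 ≤ K ∧ 1 ≤ a₀ ∧ 0 < c ∧ P167.Q.Ann r K a₀ c
  lrm : P167.Q.Lrm μ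
  til : K_til
  arm : K_armq μ
  hb0 : M_hb0 μ
  kb : Z_kb μ
  ch : Z_ch μ
  kmid : K_midq μ
  dec : Q_decq μ
  l2 : Z_l2 μ a
  r0 : R_0q μ a
  r1 : R_1q μ a
  r2 : R_2q μ a
  u1 : I_u1q μ a
  l1 : I_l1q μ a
  eup : E_upq μ a
  elo : E_loq μ a

noncomputable section

def gq (a x : ℝ) : ℝ := (a ^ 2 - x ^ 2) / (2 * Real.pi * (Real.pi - a))

/-- blocks of `m` scales with gaps of `s` scales -/
def MG (J m s t : ℕ) (ω : Cf) : ℕ := ∑ i ∈ range t, N1 (J + i * (m + s)) m ω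

def Big (K : Finset ℕ) (n : ℕ) (C : Set Sq) : Prop :=
  C ⊆ box n ∧ ∃ k ∈ K, (∃ x ∈ box (3 * 2 ^ k), x ∈ C) ∧ ¬Sml C (2 ^ k / 2)

def kX (K : Finset ℕ) (n : ℕ) (ω : Cf) : ℕ := ((cls ω (box n)).filter (Big K n)).card

def kC (c : Bool) (K : Finset ℕ) (n : ℕ) (ω : Cf) : ℕ :=
  ((cls ω (box n)).filter fun C : Set Sq =>
    Big K n C ∧ ∀ x ∈ C, decide (Even (x.1 + x.2)) = c).card

/-- all bonds of `L` are in the state `b` -/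
def Lay (L : Finset Sq) (b : Bool) : Set Cf := {ω | ∀ v ∈ L, ω v = b}

end

/-! ### Upper ratio mixing -/

def N_ann (μ : Measure Cf) : Prop := ∃ g n₀ : ℕ, ∃ c : ℝ, 0 < c ∧ 2 ≤ g ∧ ∀ n ≥ n₀, ∀ z ∈ box 1,
  ∀ H : Cf → ℝ, Off (bz z (g * n + 1) \ bz z n) H →
    c * exm μ H ≤ exm μ fun ω => H ω * Pc.chi (Cut (bz z (g * n + 1)) (bz z n) ω)

def N_p (r : ℝ) (μ : Measure Cf) : Prop := ∀ (S T : Finset Sq) (F G : Cf → ℝ), T ⊆ S →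
  (∀ ω, 0 ≤ F ω) → Lc T F → Off S G →
  (exm μ fun ω => F ω * Pc.chi (Cut S T ω) * G ω) ≤ Q.f0 r S F * exm μ G

def N_g0 (r : ℝ) (μ : Measure Cf) : Prop := ∀ (S L : Finset Sq) (F : Cf → ℝ), Lc S F →
  Disjoint L S → (∀ e ∈ S, ∀ v ∈ bz e 1, v ∉ S → v ∈ L) →
  Q.f0 r S F * μ.real (Lay L false) ≤ exm μ fun ω => F ω * (Lay L false).indicator 1 ω

def N_wir : Prop := ∀ S : Finset Sq, ∃ L : Finset Sq, Disjoint L S ∧ ∀ (r : ℝ), ∀ ξ ∈ Lay L true,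
  ∀ F : Cf → ℝ, Lc S F → Q.fx r S ξ F = Q.fx r S (fun _ => true) F

def N_q (μ : Measure Cf) : Prop := ∀ S T : Finset Sq, T ⊆ S → ∃ L₀ : Finset Sq, Disjoint L₀ S ∧
  ∀ L : Finset Sq, L₀ ⊆ L → Disjoint L S → ∀ F : Cf → ℝ, (∀ ω, 0 ≤ F ω) → Lc T F →
    (exm μ fun ω => F ω * Pc.chi (Cut S T ω) * (Lay L true).indicator 1 ω) ≤
      exm μ F * μ.real (Lay L true)

def N_urm (μ : Measure Cf) : Prop := ∃ k a₀ : ℕ, ∃ c : ℝ, 0 < c ∧ ∀ a ≥ a₀, ∀ F G : Cf → ℝ,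
  (∀ ω, 0 ≤ F ω) → Lc (box a) F → Off (box (2 ^ k * a)) G →
  c * (exm μ fun ω => F ω * G ω) ≤ exm μ F * exm μ G

def N_prod (μ : Measure Cf) : Prop := ∃ s J₀ : ℕ, ∃ c : ℝ, 0 < c ∧ c ≤ 1 ∧ ∀ u : ℝ, 0 ≤ u →
  ∀ J ≥ J₀, ∀ m t : ℕ, 1 ≤ m →
    c ^ t * ∏ i ∈ range t, FFm μ u (J + i * (m + s)) m ≤ (exm μ fun ω => u ^ MG J m s t ω) ∧
    c ^ t * (exm μ fun ω => u ^ MG J m s t ω) ≤ ∏ i ∈ range t, FFm μ u (J + i * (m + s)) m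

/-! ### Counting -/

structure N_pt : Prop where
  lx : ∀ K n, Lc (box (n + 1)) (kX K n)
  lc : ∀ c K n, Lc (box (n + 1)) (kC c K n)
  le : ∀ K n ω, kX K n ω ≤ kC true K n ω + kC false K n ω
  ev : ∀ (κ : ℕ → ℕ) (I : ℕ → Finset (Sq × ℕ)) (L : ℕ) (K : Finset ℕ) (n : ℕ) ω,
    (∀ k ∈ K, ∃ i < L, κ i = k) → (∀ i, bz 0 (3 * 2 ^ κ i) ⊆ til (I i)) →
    kC true K n ω ≤ kM (fun i => 2 ^ κ i / 2) I 0 L ∅ ω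
  od : ∀ (κ : ℕ → ℕ) (I : ℕ → Finset (Sq × ℕ)) (L : ℕ) (K : Finset ℕ) (n : ℕ) ω,
    (∀ k ∈ K, ∃ i < L, κ i = k) → (∀ i, bz (0 - (1, 0)) (3 * 2 ^ κ i) ⊆ til (I i)) →
    kC false K n (sh (-1, 0) ω) ≤ kM (fun i => 2 ^ κ i / 2) I 0 L ∅ ω

def N_gen (μ : Measure Cf) : Prop := ∀ τ : ℝ, 1 ≤ τ → ∃ C : ℝ, 0 ≤ C ∧ ∃ J₀ : ℕ,
  ∀ (K : Finset ℕ) (n : ℕ), (∀ k ∈ K, J₀ ≤ k) →
    (exm μ fun ω => τ ^ kX K n ω) ≤ Real.exp (C * K.card)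

def N_cnt : Prop := ∀ J m s t n : ℕ, 1 ≤ m → 2 ^ (J + t * (m + s)) ≤ n →
  n < 2 ^ (J + (t + 1) * (m + s)) → Lc (box (n + 1)) (MG J m s t) ∧
  ∃ K : Finset ℕ, K.card ≤ t * (s + 1) + (m + s) ∧ (∀ k ∈ K, J ≤ k) ∧ ∀ ω,
    MG J m s t ω ≤ nN n ω ∧ nN n ω ≤ MG J m s t ω + (box (3 * 2 ^ J)).card + kX K n ω

/-! ### Exponents -/

def N_hol (μ : Measure Cf) : Prop := ∀ (u v s : ℝ) (J m : ℕ), 0 < u → 0 < v → 0 < s → s < 1 →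
  FFm μ (u ^ (1 - s) * v ^ s) J m ≤ FFm μ u J m ^ (1 - s) * FFm μ v J m ^ s

def N_lo (μ : Measure Cf) (a : ℝ) : Prop := ∀ x : ℝ, 0 ≤ x → x < Real.pi / 2 → ∀ ε : ℝ, 0 < ε →
  ∃ p > (1 : ℝ), ∃ m₀ : ℕ, ∀ m ≥ m₀, ∀ᶠ J in atTop,
    Real.exp ((gq a x * Real.log 2 - ε) * m) ≤ FFm μ ((Real.cos x / Real.cos a) ^ (1 / p)) J m ^ p

def N_3 (μ : Measure Cf) (a : ℝ) : Prop := ∀ θ : ℝ, -a < θ → θ < 0 → ∀ ε : ℝ, 0 < ε →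
  ∃ p₀ > (1 : ℝ), ∀ p > (1 : ℝ), p ≤ p₀ → ∃ m₀ : ℕ, ∀ m ≥ m₀, ∀ᶠ J in atTop,
    FFm μ (wq a θ ^ (1 / p)) J m ≤ Real.exp (-(aq a * θ ^ 2 * m) - θ * bem μ a J m + ε * m)

def N_upx (μ : Measure Cf) (a x : ℝ) : Prop := ∀ ε : ℝ, 0 < ε →
  ∃ p > (1 : ℝ), ∃ m₀ : ℕ, ∀ m ≥ m₀, ∀ᶠ J in atTop,
    FFm μ ((Real.cos x / Real.cos a) ^ p) J m ^ (1 / p) ≤
      Real.exp ((gq a x * Real.log 2 + ε) * m)

def N_up1 (μ : Measure Cf) (a : ℝ) : Prop := ∀ x : ℝ, 0 < x → x < Real.pi / 2 → N_upx μ a x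

def N_tup (μ : Measure Cf) (a : ℝ) : Prop := ∀ x : ℝ, 0 ≤ x → x < Real.pi / 2 → ∀ ε : ℝ, 0 < ε →
  ∀ᶠ n : ℕ in atTop,
    (exm μ fun ω => (Real.cos x / Real.cos a) ^ nN n ω) ≤ Real.exp ((gq a x + ε) * Real.log n)

def N_tlo (μ : Measure Cf) (a : ℝ) : Prop := ∀ x : ℝ, 0 ≤ x → x < Real.pi / 2 → ∀ ε : ℝ, 0 < ε →
  ∀ᶠ n : ℕ in atTop,
    Real.exp ((gq a x - ε) * Real.log n) ≤ exm μ fun ω => (Real.cos x / Real.cos a) ^ nN n ω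

def GoalA (μ : Measure Cf) (a : ℝ) : Prop := ∀ x : ℝ, 0 ≤ x → x ≤ Real.pi / 2 →
  Tendsto (fun n : ℕ => Real.log (∫ ω, (Real.cos x / Real.cos a) ^ nestN n ω ∂μ) / Real.log n)
    atTop (𝓝 ((a ^ 2 - x ^ 2) / (2 * Real.pi * (Real.pi - a))))

def GoalB (μ : Measure Cf) (a : ℝ) : Prop := 0 < a →
  Tendsto (fun n : ℕ => (∫ ω, (nestN n ω : ℝ) ∂μ) / Real.log n) atTop
    (𝓝 (a / (Real.pi * (Real.pi - a) * Real.tan a)))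

end Vale.Agent.P167Q.N
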