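import Vale.Agent.P167.QAll
import Vale.Agent.P167.ZDep
import Vale.Agent.P167.ZDmp
import Vale.Agent.P167.ZExp
import Vale.Agent.P167.ZIn
import Vale.Agent.P152.Value
import Vale.Agent.P167Q.Top
import Vale.Agent.P167Q.YMain
import Vale.Agent.P167W.WMain
import Vale.Agent.P167W.ZCh
import Vale.Agent.P167W.ZDec
import Vale.Agent.P167W.ZKb
import Vale.Agent.P167W.ZKey
import Vale.Agent.P167W.ZKm
import Vale.Agent.P167W.ZL2
import Vale.Agent.P167W.ZMc
import Vale.Agent.P167W.ZPt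
import Vale.Agent.P167W.ZWb
import Vale.Agent.P167W.UAnn
import Vale.Agent.P167W.UArm0
import Vale.Agent.P167W.UBd
import Vale.Agent.P167W.UElo
import Vale.Agent.P167W.UEup
import Vale.Agent.P167W.UFp
import Vale.Agent.P167W.UGff
import Vale.Agent.P167W.UGood
import Vale.Agent.P167W.UI1
import Vale.Agent.P167W.UIn
import Vale.Agent.P167W.UR0
import Vale.Agent.P167W.UR1
import Vale.Agent.P167W.UR3
import Vale.Agent.P167W.UUp
import Vale.Agent.P167W.UZnum
import Vale.Agent.P167U.UMain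
import Vale.Agent.P167N.NStm

/-! P167N: all facts on the random-cluster measure in one place. -/

open MeasureTheory Filter Topology

namespace Vale.Agent.P167Q.N

open Vale.Agent.P167Q.W hiding nr
open Vale.Agent.P167.Pc (t_bas s_int s_per s_bas1 s_w1)
open Vale.Agent.P167.Q (t_lin t_rat t_hol u_dom u_pl u_qi u_fe u_loc t_aut t_qm t_dif t_fkg)

theorem pre_pf : Pre :=
  have hb := base_pf
  have geo := xgeo_pf hb
  have dep := xdep_pf hb geo
  ⟨hb, geo, dep, xsh_pf hb dep, dcls_pf hb geo, dsum_pf hb geo, gtf_pf gval_pf, gcel_pf,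
    ttop_pf hb dep tcyl_pf, t_bas, t_lin, t_rat, u_dom, u_pl, u_qi, t_aut,
    t_qm t_lin u_pl t_dif s_int, u_loc,
    P167.Q.t_df1 t_bas t_rat (P167.Q.t_mrg s_bas1 s_per), P167.Q.t_df2 t_bas, P167.Q.t_df3 t_bas⟩

theorem al_bd {a : ℝ} (h0 : 0 ≤ a) (h1 : a ≤ Real.pi / 3) : 0 < al a ∧ al a ≤ 1 / 4 := by
  have p := Real.pi_pos
  have d : 0 < 2 * Real.pi * (Real.pi - a) := by
    have : 0 < Real.pi - a := by linarith
    positivity
  unfold al
  refine ⟨div_pos (by nlinarith) d, ?_⟩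
  rw [div_le_iff₀ d]
  nlinarith [sq_nonneg (a - Real.pi / 4)]

theorem core_of {r a : ℝ} {μ : Measure Cf} (h1 : 1 ≤ r) (h2 : r ≤ 2) (hμ : P167.Q.FKm r μ)
    (ha : W.U.Ang a) (hG : W_fin μ → Goalq μ a) : An r μ a ∧ U.Au μ (al a) := by
  have P := pre_pf
  have hb := P.hb
  have C := core0 P h1 h2 hμ
  have hm := C.hm
  have hG := hG C.fin
  have bd := W.U.w_bd hb P.geo ha hm C.fin
  have ud := W.U.d_up hb ha (W.U.d_in ha) P.cl P.sum
  have good := W.U.d_good ha P.sum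
  have fp := W.U.l_fp hb
  have gff := W.U.g_gff hb ha hG fp P.tf P.cel
  have D := core1 P C bd ud.1 ud.2
    (W.U.k_arm0 hb P.geo P.dep ha hm C.fin bd (ev_of P C bd) ud.2 good gff)
  have i1 := W.U.i_one ha hm bd gff D.up D.lo good
  have r0 := W.U.r_zero hb P.geo P.dep ha hm bd
  have r1 := W.U.r_one ha r0 i1.1
  have step := v_step P.lin P.rat
  have det := v_det hb
  have ann := P167.Q.z_ann2 t_lin u_dom (t_fkg t_lin t_hol t_rat) P167.Q.z_dep h1
    (z_wb h1 hμ hb hm C.az P167.Q.z_dep C.sup D.rsw)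
  have dmp := P167.Q.z_dmp t_lin u_dom t_dif s_int
  have zx := P167.Q.z_exp t_lin dmp
  have lrm := P167.Q.z_lrm2 t_lin (P167.Q.z_in t_lin u_pl u_fe dmp zx) zx h1 hμ ann
  have kb := z_kb bd D.stp
  have ch := z_ch hb P.dep hm bd C.lim (z_pt hb P.geo)
  have km := z_km hm C.az bd k_til D.arm C.hb0 kb ch (z_mc hb P.geo P.shh)
  have dec := z_dec hm C.az D.pol
  have l2 := z_l2 ha hb P.dep hm bd (W.U.g_gff3 hb ha hG fp P.tf P.cel) D.up D.lo
    (W.U.d_good3 ha P.sum (dgood_pf hb P.geo P.sum)) (z_key hb P.geo P.dep hm bd lrm)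
  have r2 := W.U.r_two ha r0 r1 i1.1 l2 km dec
  have eup := W.U.e_up ha hm D.sub C.sym (W.U.r_three ha r0 r2 i1.2)
  have elo := W.U.e_lo ha hm D.sub C.ring C.qrsw D.qin
    (q_mid hb hm r0 D.sub C.sym D.qin D.glue P.top) r1
  exact ⟨⟨h1, hμ, ha.1, ha.2, hb, P.geo, P.dep, P.shh, y0_pf (al_of goal_pf), hm, C.az, bd, P.lin,
      v_base, det, v_rep P.lin step (v_mon P.lin P.dom) v_base det, v_lift hb P.lin step, ann, lrm,
      k_til, D.arm, C.hb0, kb, ch, km, dec, l2, r0, r1, r2, i1.1, i1.2, eup, elo⟩,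
    ⟨hb, P.geo, P.dep, P.shh, hm, C.az, C.mix, D.arm, C.cir, C.sym, D.sub, C.ring, C.qrsw,
      (al_bd ha.1 ha.2).1, (al_bd ha.1 ha.2).2, eup, elo⟩⟩

end Vale.Agent.P167Q.N
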