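import Vale.Agent.P167N.NStm
import Vale.Agent.P167W.WLift
import Vale.Agent.P167W.WMix1

/-! P167N: a closed layer gives free boundary conditions. -/

open Finset Filter Topology MeasureTheory
open scoped Classical

namespace Vale.Agent.P167Q.N

open Vale.Agent.P167Q.W hiding nr
open Vale.Agent.P167 (Q.ea Q.eb Q.fx Q.f0 Q.FKm Pc.chi Pc.Loc)

namespace NG0x

theorem ends {v e : Sq} (h : v ∉ bz e 1) :
    Q.ea v ≠ Q.ea e ∧ Q.ea v ≠ Q.eb e ∧ Q.eb v ≠ Q.ea e ∧ Q.eb v ≠ Q.eb e := by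
  rw [mem_bz] at h
  unfold P167.Q.ea P167.Q.eb
  refine ⟨?_, ?_, ?_, ?_⟩ <;> intro k <;> split_ifs at k <;>
    simp only [Prod.ext_iff, Prod.fst_sub, Prod.snd_sub] at k <;> push_cast at h <;> omega

theorem le_lay (L : Finset Sq) (b : Bool) : Le L (Lay L b) := fun ω ω' k =>
  propext (forall₂_congr fun v hv => by rw [k v hv])

theorem lc_lay (L : Finset Sq) (b : Bool) :
    Lc L fun ω => (Lay L b).indicator (1 : Cf → ℝ) ω := fun ω ω' k => by
  have e : ω ∈ Lay L b ↔ ω' ∈ Lay L b := Eq.to_iff (le_lay L b ω ω' k)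
  by_cases q : ω ∈ Lay L b
  · simp only [Set.indicator_of_mem q, Set.indicator_of_mem (e.1 q), Pi.one_apply]
  · simp only [Set.indicator_of_notMem q, Set.indicator_of_notMem (mt e.2 q)]

end NG0x

open NG0x in
theorem ng0_pf {r a : ℝ} {μ : Measure Cf} (h : An r μ a) : N_g0 r μ := by
  intro S L F hF hd hL
  have r0 : 0 < r := lt_of_lt_of_le one_pos h.hr
  have l1 : Pc.Loc fun ω => Q.f0 r S F * (Lay L false).indicator (1 : Cf → ℝ) ω :=
    ⟨L, fun ω ω' k => congrArg _ (lc_lay L false ω ω' k)⟩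
  have l2 : Pc.Loc fun ω => F ω * (Lay L false).indicator (1 : Cf → ℝ) ω :=
    ⟨S ∪ L, fun ω ω' k => congrArg₂ _ (hF ω ω' fun v hv => k v (mem_union_left _ hv))
      (lc_lay L false ω ω' fun v hv => k v (mem_union_right _ hv))⟩
  have key := h.lift r μ h.hr h.fk S _ _ (fun _ => 1) l1 l2 (fun ξ => by
    rw [WLiftx.out r S ξ (fun _ => Q.f0 r S F) _ L (lc_lay L false) hd,
      WLiftx.out r S ξ F _ L (lc_lay L false) hd]
    by_cases q : ξ ∈ Lay L false
    · have e1 : Q.fx r S ξ (fun _ => Q.f0 r S F) = Q.f0 r S F :=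
        (h.lin _ _ r Q.ea Q.eb P167.Q.nil S ξ r0).1 _
      rw [e1, h.vb r S ξ F hF fun v hv hξ e he => ends fun k => by
        have := q v (hL e he v k hv)
        rw [hξ] at this
        exact absurd this (by decide)]
    · simp only [Set.indicator_of_notMem q, zero_mul, le_refl])
    ⟨⟨∅, fun _ _ _ => rfl, disjoint_empty_left _⟩, fun _ => zero_le_one⟩
  simp only [mul_one] at key
  refine le_of_eq_of_le ?_ key
  unfold exm
  rw [integral_const_mul, integral_indicator_one ((h.base.loc _ L).2 _ (le_lay L false)).1]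

end Vale.Agent.P167Q.N
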