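import Vale.Agent.P167N.NStm
import Vale.Agent.P167Q.YGa

/-! P167N: the moment generating exponent of the nesting number. -/

open Finset Filter Topology MeasureTheory
open scoped Classical

namespace Vale.Agent.P167Q.N

open Vale.Agent.P167Q.W hiding nr
open Vale.Agent.P167 (Q.ea Q.eb Q.fx Q.f0 Q.FKm Pc.chi Pc.Loc)

theorem nga_pf {r a : ℝ} {μ : Measure Cf} (h : An r μ a) (hu : N_tup μ a) (hl : N_tlo μ a) :
    GoalA μ a := by
  intro x h0 h1
  simp only [h.y.eq]
  rcases h1.lt_or_eq with h2 | h2
  · exact YGax.gen (fun n => exm μ fun ω => (Real.cos x / Real.cos a) ^ nN n ω) (gq a x)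
      (hu x h0 h2) (hl x h0 h2)
  · subst h2
    have e1 : (a ^ 2 - (Real.pi / 2) ^ 2) / (2 * Real.pi * (Real.pi - a)) = -al a := by
      unfold al
      ring
    have e2 : ∀ n : ℕ, ∫ ω, (Real.cos (Real.pi / 2) / Real.cos a) ^ nN n ω ∂μ =
        pcm μ true 0 n := by
      intro n
      have hm : MeasurableSet (BA true 0 n) :=
        ((h.base.loc Sq (box (n + 1))).2 _ (h.dep.ba true 0 n)).1
      have e3 : (fun ω => (Real.cos (Real.pi / 2) / Real.cos a) ^ nN n ω) =
          (BA true 0 n).indicator (fun _ => (1 : ℝ)) := by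
        funext ω
        rw [Real.cos_pi_div_two, zero_div]
        by_cases hω : ω ∈ BA true 0 n
        · rw [Set.indicator_of_mem hω, (h.y.zero n ω).2 hω, pow_zero]
        · rw [Set.indicator_of_notMem hω, zero_pow fun h3 => hω ((h.y.zero n ω).1 h3)]
      rw [e3, integral_indicator_const _ hm, smul_eq_mul, mul_one]
      rfl
    simp only [e2, e1]
    refine YGax.gen (fun n => pcm μ true 0 n) (-al a) (fun ε hε => ?_) (fun ε hε => ?_)
    · filter_upwards [h.eup ε hε] with n hn
      refine hn.trans (le_of_eq (congrArg Real.exp ?_))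
      ring
    · filter_upwards [h.elo ε hε] with n hn
      refine (le_of_eq (congrArg Real.exp ?_)).trans hn
      ring

end Vale.Agent.P167Q.N
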