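import Vale.Agent.P167N.NStm
import Vale.Agent.P167Q.YGb

/-! P167N: the mean number of nested loops from the nesting spectrum. -/

open Finset Filter Topology MeasureTheory
open scoped Classical

namespace Vale.Agent.P167Q.N

open Vale.Agent.P167Q.W hiding nr
open Vale.Agent.P167 (Q.ea Q.eb Q.fx Q.f0 Q.FKm Pc.chi Pc.Loc)

namespace NGbx

theorem jen (μ : Measure Cf) [IsProbabilityMeasure μ] (N : Cf → ℕ) (w : ℝ) (hw : 0 < w)
    (h1 : Integrable (fun ω => (N ω : ℝ)) μ) (h2 : Integrable (fun ω => w ^ N ω) μ) :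
    Real.log w * ∫ ω, (N ω : ℝ) ∂μ ≤ Real.log (∫ ω, w ^ N ω ∂μ) := by
  generalize hc : Real.log w * ∫ ω, (N ω : ℝ) ∂μ = c
  have h3 : Real.exp c ≤ ∫ ω, w ^ N ω ∂μ := by
    have h4 : ∫ ω, Real.exp c * (Real.log w * (N ω : ℝ) + (1 - c)) ∂μ = Real.exp c := by
      rw [integral_const_mul, integral_add (h1.const_mul _) (integrable_const _),
        integral_const_mul, hc]
      simp
    rw [← h4]
    refine integral_mono (((h1.const_mul _).add (integrable_const _)).const_mul _) h2 fun ω => ?_
    have h5 : w ^ N ω = Real.exp c * Real.exp (Real.log w * (N ω : ℝ) - c) := by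
      rw [← Real.exp_add, add_sub_cancel, Real.exp_mul, Real.exp_log hw, Real.rpow_natCast]
    have h6 := Real.add_one_le_exp (Real.log w * (N ω : ℝ) - c)
    show Real.exp c * (Real.log w * (N ω : ℝ) + (1 - c)) ≤ w ^ N ω
    rw [h5]
    exact mul_le_mul_of_nonneg_left (by linarith) (Real.exp_pos _).le
  exact (Real.le_log_iff_exp_le ((Real.exp_pos c).trans_le h3)).mpr h3

end NGbx

theorem ngb_pf {r a : ℝ} {μ : Measure Cf} (h : An r μ a) (ha : GoalA μ a) : GoalB μ a := by
  intro a0
  have hpi := Real.pi_pos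
  have a1 := h.a1
  have : IsProbabilityMeasure μ := h.mod.prob
  have hy := h.y
  have hint : ∀ (n : ℕ) (F : ℕ → ℝ), Integrable (fun ω => F (nestN n ω)) μ := fun n F => by
    refine h.bd.int _ (h.bd.loc (box (n + 1)) _ fun ω ω' hω => ?_)
    show F (nestN n ω) = F (nestN n ω')
    rw [hy.eq, hy.eq, hy.loc n ω ω' hω]
  have hc : 0 < Real.cos a := Real.cos_pos_of_mem_Ioo ⟨by linarith, by linarith⟩
  have hsn : 0 < Real.sin a := Real.sin_pos_of_pos_of_lt_pi a0 (by linarith)
  have hpa : 0 < Real.pi - a := by linarith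
  have hG : HasDerivAt (fun x : ℝ => (a ^ 2 - x ^ 2) / (2 * Real.pi * (Real.pi - a)))
      (-(2 * a) / (2 * Real.pi * (Real.pi - a))) a := by
    have := ((hasDerivAt_pow 2 a).const_sub (a ^ 2)).div_const (2 * Real.pi * (Real.pi - a))
    simpa using this
  have hs : HasDerivAt (fun x : ℝ => Real.log (Real.cos x / Real.cos a))
      (-(Real.sin a / Real.cos a)) a := by
    have := ((Real.hasDerivAt_cos a).div_const (Real.cos a)).log (div_pos hc hc).ne'
    refine this.congr_deriv ?_
    rw [div_self hc.ne', div_one, neg_div]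
  have key := YGbx.ana (fun n : ℕ => (∫ ω, (nestN n ω : ℝ) ∂μ) / Real.log n)
    (fun x n => Real.log (∫ ω, (Real.cos x / Real.cos a) ^ nestN n ω ∂μ) / Real.log n) _ _ _ _ _
    (Set.Ioo 0 (Real.pi / 2)) (Ioo_mem_nhds a0 (by linarith)) hG hs
    (by simp) (by simp only [div_self hc.ne', Real.log_one]) (neg_neg_of_pos (div_pos hsn hc))
    (fun x hx => ha x hx.1.le hx.2.le) (fun x hx => Eventually.of_forall fun n => by
      have hw : 0 < Real.cos x / Real.cos a :=
        div_pos (Real.cos_pos_of_mem_Ioo (x := x) ⟨by linarith [hx.1], hx.2⟩) hc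
      have := NGbx.jen μ (nestN n) _ hw (hint n fun k => (k : ℝ))
        (hint n fun k => (Real.cos x / Real.cos a) ^ k)
      rw [← mul_div_assoc]
      exact div_le_div_of_nonneg_right this (Real.log_natCast_nonneg n))
  have e : -(2 * a) / (2 * Real.pi * (Real.pi - a)) / -(Real.sin a / Real.cos a) =
      a / (Real.pi * (Real.pi - a) * Real.tan a) := by
    rw [Real.tan_eq_sin_div_cos]
    field_simp
  rw [e] at key
  exact key

end Vale.Agent.P167Q.N
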