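import Vale.Agent.P167N.NStm
import Vale.Agent.P167W.ZKm

/-! P167N: exponential moment of the number of clusters that are large at a scale of `K`. -/

open Finset Filter Topology MeasureTheory
open scoped Classical

namespace Vale.Agent.P167Q.N

open Vale.Agent.P167Q.W hiding nr
open Vale.Agent.P167 (Q.ea Q.eb Q.fx Q.f0 Q.FKm Pc.chi Pc.Loc)

namespace NGenx

theorem kap (K : Finset ℕ) (J : ℕ) (h : ∀ k ∈ K, J ≤ k) :
    ∃ κ : ℕ → ℕ, Monotone κ ∧ (∀ i, J ≤ κ i) ∧ ∀ k ∈ K, ∃ i < K.card, κ i = k := by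
  refine ⟨fun i => if hi : i < K.card then K.orderEmbOfFin rfl ⟨i, hi⟩ else K.sup id + J,
    fun i j hij => ?_, fun i => ?_, fun k hk => ?_⟩
  · by_cases hj : j < K.card
    · have hi : i < K.card := lt_of_le_of_lt hij hj
      simp only [dif_pos hi, dif_pos hj]
      exact (K.orderEmbOfFin rfl).monotone (Fin.mk_le_mk.2 hij)
    · by_cases hi : i < K.card
      · simp only [dif_pos hi, dif_neg hj]
        have : id (K.orderEmbOfFin rfl ⟨i, hi⟩) ≤ K.sup id :=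
          Finset.le_sup (K.orderEmbOfFin_mem rfl ⟨i, hi⟩)
        exact le_trans this (Nat.le_add_right _ _)
      · simp only [dif_neg hi, dif_neg hj]
        exact le_rfl
  · by_cases hi : i < K.card
    · simp only [dif_pos hi]
      exact h _ (K.orderEmbOfFin_mem rfl ⟨i, hi⟩)
    · simp only [dif_neg hi]
      exact Nat.le_add_left _ _
  · have hr : k ∈ Set.range (K.orderEmbOfFin rfl) := by
      rw [Finset.range_orderEmbOfFin]
      exact hk
    obtain ⟨i, hi⟩ := hr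
    refine ⟨i.1, i.2, ?_⟩
    simp only [dif_pos i.2]
    exact hi

theorem key {μ : Measure Cf} (hm : Mod μ) (hz : W_az) (ht : K_til) (ha : K_armq μ)
    (h0 : M_hb0 μ) (h1 : Z_kb μ) (h2 : Z_ch μ) {t : ℝ} (t1 : 1 ≤ t) :
    ∃ n0 s0 : ℕ, ∀ κ : ℕ → ℕ, Monotone κ → (∀ i, s0 ≤ κ i) → ∀ z : Sq,
      ∃ I : ℕ → Finset (Sq × ℕ), (∀ i, bz z (3 * 2 ^ κ i) ⊆ til (I i)) ∧
      ∀ (m : ℕ) (Φ : Cf → ℝ), Bdm μ Φ → (∀ ω, 0 ≤ Φ ω) →
        (∀ ω, Φ ω ≤ t ^ kM (fun i => 2 ^ κ i / 2) I 0 m ∅ ω) →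
        exm μ Φ ≤ (2 ^ n0) ^ m := by
  have := hm.prob
  have t0 : 0 < t := by linarith
  have te : t * (1 / (2 * t)) = 1 / 2 := by field_simp
  obtain ⟨g, g1, hg⟩ := ha (1 / (2 * t)) (by positivity)
  obtain ⟨n0, s0, hs⟩ := ht g g1
  refine ⟨n0, s0, fun κ hκ hJ z => ?_⟩
  have hb : ∀ (w : Sq) (u : ℕ), 1 ≤ u → HB μ (fun _ => 1) (1 / (2 * t)) w u (g * u) := by
    intro w u hu R H hA
    refine (h0 w u (g * u) R H hA).trans ?_
    refine mul_le_mul_of_nonneg_right ((hz.le μ hm true w u (g * u)).trans (hg u hu)) ?_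
    exact integral_nonneg fun ω => mul_nonneg (hA.2.1 ω) zero_le_one
  have hge : ∀ i, s0 ≤ 2 ^ κ i := fun i => by
    have := Nat.lt_two_pow_self (n := κ i)
    have := hJ i
    omega
  choose I hI1 hI2 hI3 using fun i => hs (2 ^ κ i) (hge i) z
  refine ⟨I, hI2, fun m Φ b1 b2 b3 => ?_⟩
  have kb : ∀ i, KB μ (fun _ => 1) t (2 ^ κ i / 2) (I i) (2 ^ n0) := by
    intro i R H hA
    refine (h1 t (1 / (2 * t)) _ g (I i) t1 (by positivity) (by rw [te]; norm_num)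
      (fun j hj => ⟨(hI3 i j hj).2.1, hb _ _ (hI3 i j hj).1⟩) R H hA).trans ?_
    refine mul_le_mul_of_nonneg_right ?_
      (integral_nonneg fun ω => mul_nonneg (hA.2.1 ω) zero_le_one)
    have e : (1 / (1 - t * (1 / (2 * t))) : ℝ) = 2 := by
      rw [te]
      norm_num
    rw [e]
    exact pow_le_pow_right₀ (by norm_num) (hI1 i)
  have mo : Monotone fun i => 2 ^ κ i / 2 := fun i j hij =>
    Nat.div_le_div_right (Nat.pow_le_pow_right (by norm_num) (hκ hij))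
  have k := h2 t (2 ^ n0) _ I t1 (by positivity) mo kb m 0 ∅ (fun _ => 1) Φ ZKm.adm1
    b1 b2 (fun ω _ => b3 ω)
  simpa [exm] using k

theorem amgm {τ : ℝ} (h1 : 1 ≤ τ) (n p q : ℕ) (h : n ≤ p + q) :
    τ ^ n ≤ ((τ ^ 2) ^ p + (τ ^ 2) ^ q) / 2 := by
  have e : ∀ k : ℕ, (τ ^ 2) ^ k = (τ ^ k) ^ 2 := fun k => by
    rw [← pow_mul, mul_comm, pow_mul]
  have l : τ ^ n ≤ τ ^ p * τ ^ q := by
    rw [← pow_add]
    exact pow_le_pow_right₀ h1 h
  rw [e p, e q]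
  nlinarith [sq_nonneg (τ ^ p - τ ^ q)]

end NGenx

open NGenx in
theorem ngen_pf {r a : ℝ} {μ : Measure Cf} (h : An r μ a) (hp : N_pt) : N_gen μ := by
  intro τ hτ
  have hm := h.mod
  have hx := h.bd
  have := hm.prob
  have t1 : 1 ≤ τ ^ 2 := one_le_pow₀ hτ
  obtain ⟨n0, s0, hk⟩ := key hm h.az h.til h.arm h.hb0 h.kb h.ch t1
  refine ⟨n0, Nat.cast_nonneg _, s0, fun K n hK => ?_⟩
  obtain ⟨κ, k1, k2, k3⟩ := kap K s0 hK
  obtain ⟨I, i1, i2⟩ := hk κ k1 k2 0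
  obtain ⟨I', j1, j2⟩ := hk κ k1 k2 (0 - (1, 0))
  have lc : ∀ c, Lc (box (n + 1)) fun ω => (τ ^ 2) ^ kC c K n ω := fun c ω ω' e => by
    show (τ ^ 2) ^ _ = (τ ^ 2) ^ _
    rw [hp.lc c _ _ ω ω' e]
  have lx : Lc (box (n + 1)) fun ω => τ ^ kX K n ω := fun ω ω' e => by
    show τ ^ _ = τ ^ _
    rw [hp.lx _ _ ω ω' e]
  have bd := fun c => hx.loc _ _ (lc c)
  have p1 := i2 K.card _ (bd true) (fun ω => by positivity) fun ω =>
    pow_le_pow_right₀ t1 (hp.ev κ I K.card K n ω k3 i1)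
  have lc' : Lc ((box (n + 1)).image fun v : Sq => v + (-1, 0))
      fun ω => (τ ^ 2) ^ kC false K n (sh (-1, 0) ω) :=
    fun ω ω' e => lc false _ _ fun v hv => by
      unfold sh
      rw [e _ (mem_image_of_mem _ hv)]
  have p2 := j2 K.card _ (hx.loc _ _ lc') (fun ω => by positivity) fun ω =>
    pow_le_pow_right₀ t1 (hp.od κ I' K.card K n ω k3 j1)
  have e : (exm μ fun ω => (τ ^ 2) ^ kC false K n (sh (-1, 0) ω)) =
      exm μ fun ω => (τ ^ 2) ^ kC false K n ω := by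
    have mp := hm.inv (-1, 0)
    have k := integral_map (μ := μ) (φ := sh (-1, 0)) mp.measurable.aemeasurable
      (f := fun ω => (τ ^ 2) ^ kC false K n ω)
      (by rw [mp.map_eq]; exact (bd false).1.aestronglyMeasurable)
    rw [mp.map_eq] at k
    exact k.symm
  rw [e] at p2
  have q : ((2 : ℝ) ^ n0) ^ K.card ≤ Real.exp (n0 * K.card) := by
    have t : (2 : ℝ) ≤ Real.exp 1 := by
      have := Real.add_one_le_exp (1 : ℝ)
      linarith
    rw [← pow_mul, ← Nat.cast_mul, ← Real.exp_one_pow]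
    exact pow_le_pow_left₀ (by norm_num) t _
  have m1 := ZKm.integ (bd true)
  have m2 := ZKm.integ (bd false)
  calc (exm μ fun ω => τ ^ kX K n ω) ≤
        ∫ ω, ((τ ^ 2) ^ kC true K n ω + (τ ^ 2) ^ kC false K n ω) / 2 ∂μ :=
        integral_mono (ZKm.integ (hx.loc _ _ lx)) ((m1.add m2).div_const 2)
          fun ω => amgm hτ _ _ _ (hp.le _ _ ω)
    _ = ((exm μ fun ω => (τ ^ 2) ^ kC true K n ω) +
        exm μ fun ω => (τ ^ 2) ^ kC false K n ω) / 2 := by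
        rw [integral_div, integral_add m1 m2]
        rfl
    _ ≤ ((2 : ℝ) ^ n0) ^ K.card := by linarith
    _ ≤ _ := q

end Vale.Agent.P167Q.N
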