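import Vale.Agent.P167N.NStm
import Vale.Agent.P167Q.YHol

/-! P167N: the inequality of Hoelder for the generating functions. -/

open Finset Filter Topology MeasureTheory
open scoped Classical

namespace Vale.Agent.P167Q.N

open Vale.Agent.P167Q.W hiding nr
open Vale.Agent.P167 (Q.ea Q.eb Q.fx Q.f0 Q.FKm Pc.chi Pc.Loc)

namespace NHolx

theorem pos {μ : Measure Cf} [IsProbabilityMeasure μ] {X : Cf → ℝ} (h0 : ∀ ω, 0 < X ω)
    (hi : Integrable X μ) : 0 < exm μ X := by
  refine (integral_pos_iff_support_of_nonneg (fun ω => (h0 ω).le) hi).2 ?_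
  rw [Set.eq_univ_of_forall (s := Function.support X) fun ω => (h0 ω).ne', measure_univ]
  exact one_pos

theorem hol {μ : Measure Cf} [IsProbabilityMeasure μ] {X Y : Cf → ℝ} {s : ℝ} (s0 : 0 < s)
    (s1 : s < 1) (x0 : ∀ ω, 0 < X ω) (y0 : ∀ ω, 0 < Y ω) (hX : Integrable X μ)
    (hY : Integrable Y μ) :
    (exm μ fun ω => X ω ^ (1 - s) * Y ω ^ s) ≤ exm μ X ^ (1 - s) * exm μ Y ^ s := by
  have a0 := pos x0 hX
  have b0 := pos y0 hY
  have a1 := Real.rpow_pos_of_pos a0 (1 - s)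
  have b1 := Real.rpow_pos_of_pos b0 s
  have i1 := (hX.div_const (exm μ X)).const_mul (1 - s)
  have i2 := (hY.div_const (exm μ Y)).const_mul s
  refine (integral_mono_of_nonneg (ae_of_all _ fun ω => (mul_pos (Real.rpow_pos_of_pos (x0 ω) _)
    (Real.rpow_pos_of_pos (y0 ω) _)).le)
    ((i1.add i2).const_mul (exm μ X ^ (1 - s) * exm μ Y ^ s))
    (ae_of_all _ fun ω => ?_)).trans_eq ?_
  · have k := Real.geom_mean_le_arith_mean2_weighted (sub_pos.2 s1).le s0.le
      (div_pos (x0 ω) a0).le (div_pos (y0 ω) b0).le (sub_add_cancel 1 s)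
    rw [Real.div_rpow (x0 ω).le a0.le, Real.div_rpow (y0 ω).le b0.le, div_mul_div_comm,
      div_le_iff₀' (mul_pos a1 b1)] at k
    exact k
  · rw [integral_const_mul, integral_add' i1 i2, integral_const_mul, integral_const_mul,
      integral_div, integral_div]
    have e1 : (∫ ω, X ω ∂μ) / exm μ X = 1 := div_self a0.ne'
    have e2 : (∫ ω, Y ω ∂μ) / exm μ Y = 1 := div_self b0.ne'
    rw [e1, e2]
    ring

end NHolx

theorem nhol_pf {r a : ℝ} {μ : Measure Cf} (h : An r μ a) : N_hol μ := by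
  intro u v s J m hu hv s0 s1
  have := h.mod.prob
  refine le_trans (le_of_eq ?_) (NHolx.hol (X := fun ω => u ^ N1 J m ω)
    (Y := fun ω => v ^ N1 J m ω) s0 s1 (fun ω => pow_pos hu _) (fun ω => pow_pos hv _)
    (h.bd.int _ (h.bd.mid _ _ fun n => u ^ n)) (h.bd.int _ (h.bd.mid _ _ fun n => v ^ n)))
  refine congrArg (exm μ) (funext fun ω => ?_)
  rw [mul_pow, Real.rpow_pow_comm hu.le, Real.rpow_pow_comm hv.le]

end Vale.Agent.P167Q.N
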