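import Vale.Agent.P167N.NStm
import Vale.Agent.P167W.WPt

/-! P167N: clusters round a point, split by colour. -/

open Finset Relation Filter Topology MeasureTheory
open scoped Classical BigOperators

namespace Vale.Agent.P167Q.W.N

open Vale.Agent.P167 (Q.ea Q.eb Q.fx Q.f0 Q.FKm Pc.chi Pc.Loc)

namespace NKax

theorem shift_mem {P : Finset (ℕ × ℕ)} {x : Sq} (h : x ∈ ann 0 P) : x - (1, 0) ∈ ann (-1, 0) P := by
  unfold ann at h ⊢
  obtain ⟨i, hi, hx⟩ := mem_biUnion.1 h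
  refine mem_biUnion.2 ⟨i, hi, ?_⟩
  generalize 2 ^ (i.1 + i.2) = a at hx ⊢
  generalize 2 ^ i.1 - 1 = b at hx ⊢
  rw [Finset.mem_sdiff, mem_bz, mem_bz] at hx ⊢
  simp only [Prod.fst_sub, Prod.snd_sub, Prod.fst_zero, Prod.snd_zero] at hx ⊢
  omega

theorem rnd_shift {C : Set Sq} (h : Rnd 0 C) : Rnd (-1, 0) {y | y + (1, 0) ∈ C} := by
  obtain ⟨⟨a, ha, h1⟩, ⟨b, hb, h2⟩, ⟨c, hc, h3⟩, d, hd, h4⟩ := h
  simp only [Prod.fst_zero, Prod.snd_zero] at h1 h2 h3 h4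
  refine ⟨⟨a - (1, 0), by simpa using ha, ?_⟩, ⟨b - (1, 0), by simpa using hb, ?_⟩,
    ⟨c - (1, 0), by simpa using hc, ?_⟩, d - (1, 0), by simpa using hd, ?_⟩ <;>
  · simp only [Prod.fst_sub, Prod.snd_sub]
    omega

end NKax

theorem n_ka (_hb : Base) (hg : X_geo) (hs : X_sh) : K_ka := by
  refine ⟨fun p z N C hp hr k => hp ?_, fun P I I' ω h h' => ?_⟩
  · obtain ⟨⟨a, ha, h1⟩, ⟨b, hb, h2⟩, ⟨c, hc, h3⟩, d, hd, h4⟩ := hr
    have k1 := mem_bz.1 (mem_coe.1 (k ha))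
    have k2 := mem_bz.1 (mem_coe.1 (k hb))
    have k3 := mem_bz.1 (mem_coe.1 (k hc))
    have k4 := mem_bz.1 (mem_coe.1 (k hd))
    rw [mem_bz]
    omega
  unfold kA
  rw [← card_filter_add_card_filter_not (fun C : Set Sq => ∀ x ∈ C, Even (x.1 + x.2))]
  refine add_le_add (card_le_card fun C hC => ?_)
    (card_le_card_of_injOn (fun C : Set Sq => {y | y + (1, 0) ∈ C}) (fun C hC => ?_) ?_)
  · obtain ⟨h1, h2⟩ := mem_filter.1 hC
    obtain ⟨h3, h4⟩ := mem_filter.1 h1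
    exact mem_filter.2 ⟨image_subset_image h h3, h2, hg.bd ω C 0 h4,
      fun x hx => absurd hx (notMem_empty x)⟩
  · obtain ⟨h1, h2⟩ := mem_filter.1 (mem_coe.1 hC)
    obtain ⟨h3, h4⟩ := mem_filter.1 h1
    obtain ⟨x, hx, rfl⟩ := mem_image.1 h3
    have ho : ¬Even (x.1 + x.2) := fun k => h2 fun v hv => (WPtx.par hv).2 k
    refine mem_coe.2 (mem_filter.2 ⟨mem_image.2 ⟨x - (1, 0), h' (NKax.shift_mem hx), ?_⟩,
      fun v hv => ?_, NKax.rnd_shift (hg.bd ω _ 0 h4), fun x hx => absurd hx (notMem_empty x)⟩)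
    · ext v
      rw [hs.cl, sub_add_cancel]
      rfl
    · have k := mt (WPtx.par hv).1 ho
      simp only [Prod.fst_add, Prod.snd_add, Int.even_iff] at k ⊢
      omega
  · intro C _ D _ e
    ext v
    have k := Set.ext_iff.1 e (v - (1, 0))
    simpa using k

end Vale.Agent.P167Q.W.N
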