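import Vale.Agent.P167N.NStm
import Vale.Agent.P167Q.YLo

open Finset Filter Topology MeasureTheory
open scoped Classical

namespace Vale.Agent.P167Q.N

open Vale.Agent.P167Q.W hiding nr
open Vale.Agent.P167 (Q.ea Q.eb Q.fx Q.f0 Q.FKm Pc.chi Pc.Loc)

namespace NLox

theorem exx (a : ℝ) {x ε : ℝ} (hx : x < Real.pi / 2) (hε : 0 < ε) :
    ∃ y, x < y ∧ y < Real.pi / 2 ∧ gq a x * Real.log 2 - ε ≤ gq a y * Real.log 2 := by
  have hc : ContinuousAt (fun y => gq a y * Real.log 2) x := by unfold gq; fun_prop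
  have h1 : ∀ᶠ y in 𝓝 x, gq a x * Real.log 2 - ε < gq a y * Real.log 2 :=
    continuousAt_const.eventually_lt hc (by linarith)
  obtain ⟨y, h2, h3, h4⟩ := (eventually_mem_nhdsWithin.and
    (((eventually_lt_nhds hx).and h1).filter_mono (nhdsWithin_le_nhds (s := Set.Ioi x)))).exists
  exact ⟨y, h2, h3, h4.le⟩

theorem iden (a y : ℝ) : -(aq a * (y - a) ^ 2) - (y - a) * (2 * a * aq a) =
    gq a y * Real.log 2 := by
  unfold aq gq
  ring

end NLox

open NLox YLox in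
theorem nlo_pf {r a : ℝ} {μ : Measure Cf} (h : An r μ a) : N_lo μ a := by
  intro x hx0 hx ε hε
  have hpi := Real.pi_pos
  have hpi4 := Real.pi_le_four
  have a0 := h.a0
  have a5 := h.a1
  have ca : 0 < Real.cos a := Real.cos_pos_of_mem_Ioo ⟨by linarith, by linarith⟩
  obtain ⟨y, hxy, hy, hg⟩ := NLox.exx a hx (ε := ε / 4) (by positivity)
  have hw : wq a (y - a) = Real.cos y / Real.cos a := by rw [wq, add_sub_cancel]
  have hu : 0 < Real.cos y / Real.cos a :=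
    div_pos (Real.cos_pos_of_mem_Ioo ⟨by linarith, hy⟩) ca
  have hlt : Real.cos y / Real.cos a < Real.cos x / Real.cos a :=
    div_lt_div_of_pos_right (Real.cos_lt_cos_of_nonneg_of_le_pi hx0 (by linarith) hxy) ca
  obtain ⟨p, hp, hp1, hp2⟩ := exp' (a := gq a y * Real.log 2 - ε / 8) (ε := ε / 4) hu hlt
    (by positivity)
  obtain ⟨C, hC⟩ := h.u1 (y - a) p hp
  obtain ⟨C₁, hC₁⟩ := h.r1.1
  obtain ⟨m₁, hm₁⟩ := h.r2 (ε / 16) (by positivity)
  obtain ⟨m₂, hm₂⟩ := exists_nat_ge (p * p * (2 * |C₁| + C) / (3 * ε / 8))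
  refine ⟨p, hp, max 4 (max m₁ m₂), fun m hm => ?_⟩
  have a4 : 4 ≤ m := le_of_max_le_left hm
  have a1 : m₁ ≤ m := le_of_max_le_left (le_of_max_le_right hm)
  have a2 : (m₂ : ℝ) ≤ m := by exact_mod_cast le_of_max_le_right (le_of_max_le_right hm)
  have a3 : p * p * (2 * |C₁| + C) ≤ m * (3 * ε / 8) :=
    (div_le_iff₀ (by positivity)).1 (hm₂.trans a2)
  have hm0 : (0 : ℝ) ≤ m := Nat.cast_nonneg m
  filter_upwards [hC m a4, hC₁ m a4, hm₁ m a1] with J h1 h2 h3
  rw [hw, abs_of_pos hu] at h1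
  obtain ⟨f0, f1⟩ := h.r0.mono _ _ J m (Real.rpow_nonneg hu.le p) hp1
  refine le_trans (Real.exp_le_exp.2 ?_)
    (pw hp (f0.trans f1) (h1.trans (Real.rpow_le_rpow f0 f1 (by positivity))))
  have l1 := lin (θ := y - a) (abs_le.2 ⟨by linarith, by linarith⟩) h3 h2 (by positivity)
  have l2 : (gq a y * Real.log 2 - ε / 8) * m - (2 * |C₁| + C) ≤
      -(aq a * (y - a) ^ 2 * m) - (y - a) * bem μ a J m - C := by
    rw [← NLox.iden a y]
    linarith
  have l3 := mul_le_mul_of_nonneg_left l2 (mul_self_nonneg p)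
  have l4 := mul_le_mul_of_nonneg_right hp2 hm0
  have l5 := mul_le_mul_of_nonneg_right hg hm0
  linarith

end Vale.Agent.P167Q.N
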