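import Vale.Agent.P167N.NStm
import Vale.Agent.P167W.WMix1

open Finset Filter Topology MeasureTheory
open scoped Classical

namespace Vale.Agent.P167Q.N

open Vale.Agent.P167Q.W hiding nr
open Vale.Agent.P167 (Q.ea Q.eb Q.fx Q.f0 Q.FKm Pc.chi Pc.Loc)

theorem np_pf {r a : ℝ} {μ : Measure Cf} (h : An r μ a) : N_p r μ := by
  intro S T F G hT F0 hF hG
  have r0 : 0 < r := by linarith [h.hr]
  have a1 : ∀ ξ, Q.fx r S ξ (fun ω => F ω * Pc.chi (Cut S T ω)) ≤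
      Q.fx r S ξ fun _ => Q.f0 r S F := fun ξ => by
    obtain ⟨w, -, -, hw⟩ := h.rep r S T (fun _ => false) ξ h.hr hT fun _ _ => Bool.false_le _
    rw [(hw F hF).1, WMix1x.cst h.lin r0]
    exact (hw F hF).2 F0
  have lc1 : Lc S fun ω => F ω * Pc.chi (Cut S T ω) := fun ω ω' e =>
    congrArg₂ (· * ·) (WMix1x.lc_mono hF hT ω ω' e) (h.det.lc S T ω ω' e)
  have b2 := h.lift r μ h.hr h.fk S _ (fun _ => Q.f0 r S F) G ⟨_, lc1⟩
    ⟨∅, fun _ _ _ => rfl⟩ a1 hG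
  have b3 : (exm μ fun ω => Q.f0 r S F * G ω) = Q.f0 r S F * exm μ G := integral_const_mul _ _
  rw [b3] at b2
  exact b2

end Vale.Agent.P167Q.N
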