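import Vale.Agent.P167N.NStm
import Vale.Agent.P167W.ZKey

open Finset Filter Topology MeasureTheory
open scoped Classical

namespace Vale.Agent.P167Q.N

open Vale.Agent.P167Q.W hiding nr
open Vale.Agent.P167 (Q.ea Q.eb Q.fx Q.f0 Q.FKm Pc.chi Pc.Loc)

namespace NProdx

theorem lcF (hb : Base) (hd : X_dep) (u : ℝ) {J m s t q : ℕ} (hq : J + t * (m + s) = q + s) :
    Lc (box (2 ^ q)) fun ω => u ^ MG J m s t ω := by
  intro ω ω' hw
  refine congrArg (fun k => u ^ k) (Finset.sum_congr rfl fun i hi => ?_)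
  have h1 : (i + 1) * (m + s) ≤ t * (m + s) := Nat.mul_le_mul_right _ (Finset.mem_range.1 hi)
  rw [add_mul, one_mul] at h1
  have h2 : 2 ^ (J + i * (m + s) + m) ≤ 2 ^ q := Nat.pow_le_pow_right (by norm_num) (by omega)
  have p1 : 0 < 2 ^ (J + i * (m + s)) := Nat.two_pow_pos _
  have p2 : 0 < 2 ^ (J + i * (m + s) + m) := Nat.two_pow_pos _
  exact hd.mid _ _ (by omega) ω ω' fun v hv =>
    hw v (hb.bas.mono _ _ (by omega) (Finset.mem_sdiff.1 hv).1)

theorem lcG (hd : X_dep) (u : ℝ) (P m : ℕ) :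
    Lc (box (2 ^ (P + m) - 1 + 1) \ box (3 * 2 ^ P - 1)) fun ω => u ^ N1 P m ω := by
  have p1 : 0 < 2 ^ P := Nat.two_pow_pos _
  exact fun ω ω' hw => congrArg (fun k => u ^ k) (hd.mid _ _ (by omega) ω ω' hw)

theorem sub (hb : Base) {k s q : ℕ} (hk : k ≤ s) :
    box (2 ^ k * 2 ^ q) ⊆ box (3 * 2 ^ (q + s) - 1) := by
  have p1 : 0 < 2 ^ (q + s) := Nat.two_pow_pos _
  have p4 : 2 ^ k * 2 ^ q ≤ 2 ^ (q + s) := by
    rw [← pow_add]
    exact Nat.pow_le_pow_right (by norm_num) (by omega)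
  exact hb.bas.mono _ _ (by omega)

theorem ind {c : ℝ} (c0 : 0 ≤ c) (E f : ℕ → ℝ) (E0 : E 0 = 1) (f0 : ∀ i, 0 ≤ f i)
    (h1 : ∀ t, c * (E t * f t) ≤ E (t + 1)) (h2 : ∀ t, c * E (t + 1) ≤ E t * f t) (t : ℕ) :
    c ^ t * ∏ i ∈ range t, f i ≤ E t ∧ c ^ t * E t ≤ ∏ i ∈ range t, f i := by
  induction t with
  | zero => simp [E0]
  | succ t ih =>
    rw [Finset.prod_range_succ, pow_succ]
    have a1 := mul_le_mul_of_nonneg_left ih.1 (mul_nonneg c0 (f0 t))
    have a2 := mul_le_mul_of_nonneg_left (h2 t) (pow_nonneg c0 t)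
    have a3 := mul_le_mul_of_nonneg_right ih.2 (f0 t)
    have a4 := h1 t
    constructor <;> linarith

end NProdx

theorem nprod_pf {r a : ℝ} {μ : Measure Cf} (h : An r μ a) (hu : N_urm μ) : N_prod μ := by
  have hprob : IsProbabilityMeasure μ := h.mod.prob
  obtain ⟨k, a₀, c, hc, hl⟩ := h.lrm
  obtain ⟨k', a₁, c', hc', hu⟩ := hu
  have c0 : 0 < min (min c c') 1 := lt_min (lt_min hc hc') one_pos
  have c1 : min (min c c') 1 ≤ c := (min_le_left _ _).trans (min_le_left _ _)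
  have c2 : min (min c c') 1 ≤ c' := (min_le_left _ _).trans (min_le_right _ _)
  obtain ⟨s, s1, s2⟩ : ∃ s, k ≤ s ∧ k' ≤ s := ⟨max k k', le_max_left _ _, le_max_right _ _⟩
  refine ⟨s, s + a₀ + a₁, _, c0, min_le_right _ _, fun u u0 J hJ m t _ => ?_⟩
  have f0 : ∀ i, 0 ≤ FFm μ u (J + i * (m + s)) m := fun i => (h.r0.mono u u _ _ u0 le_rfl).1
  have E0 : ∀ t, 0 ≤ exm μ fun ω => u ^ MG J m s t ω := fun t =>
    integral_nonneg fun ω => pow_nonneg u0 _
  have key : ∀ t, c * ((exm μ fun ω => u ^ MG J m s t ω) * FFm μ u (J + t * (m + s)) m) ≤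
      (exm μ fun ω => u ^ MG J m s (t + 1) ω) ∧ c' * (exm μ fun ω => u ^ MG J m s (t + 1) ω) ≤
      (exm μ fun ω => u ^ MG J m s t ω) * FFm μ u (J + t * (m + s)) m := fun t => by
    obtain ⟨q, hq⟩ : ∃ q, J + t * (m + s) = q + s := ⟨J + t * (m + s) - s, by omega⟩
    have q1 : q < 2 ^ q := Nat.lt_two_pow_self
    have e : (fun ω => u ^ MG J m s (t + 1) ω) =
        fun ω => u ^ MG J m s t ω * u ^ N1 (q + s) m ω := by
      funext ω
      rw [MG, Finset.sum_range_succ, pow_add, hq]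
      rfl
    have l1 := NProdx.lcF h.base h.dep u hq
    have l2 := NProdx.lcG h.dep u (q + s) m
    rw [e, hq]
    refine ⟨hl (2 ^ q) (by omega) (fun ω => u ^ MG J m s t ω) (fun ω => u ^ N1 (q + s) m ω)
      (fun ω => pow_nonneg u0 _) (fun ω => pow_nonneg u0 _)
      (fun ω ω' hw => l1 ω ω' fun v hv => hw v (by
        rw [ZKey.zb_box]
        exact Finset.mem_coe.2 hv)) ⟨_, l2⟩
      (fun ω ω' hw => l2 ω ω' fun v hv => hw v (by
        rw [ZKey.zb_box]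
        exact fun hv' => (Finset.mem_sdiff.1 hv).2
          (NProdx.sub h.base s1 (Finset.mem_coe.1 hv')))), ?_⟩
    exact hu (2 ^ q) (by omega) _ _ (fun ω => pow_nonneg u0 _) l1
      ⟨⟨_, l2, Finset.disjoint_left.2 fun v hv hv' =>
        (Finset.mem_sdiff.1 hv).2 (NProdx.sub h.base s2 hv')⟩, fun ω => pow_nonneg u0 _⟩
  refine NProdx.ind c0.le (fun t => exm μ fun ω => u ^ MG J m s t ω)
    (fun i => FFm μ u (J + i * (m + s)) m) (by simp [MG, exm]) f0
    (fun t => le_trans ?_ (key t).1) (fun t => le_trans ?_ (key t).2) t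
  · exact mul_le_mul_of_nonneg_right c1 (mul_nonneg (E0 t) (f0 t))
  · exact mul_le_mul_of_nonneg_right c2 (E0 (t + 1))

end Vale.Agent.P167Q.N
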