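import Vale.Agent.P167N.NStm
import Vale.Agent.P167W.ZMc
import Vale.Agent.P167Q.Y0

/-! P167N: pointwise facts on the number of large clusters. -/

open Finset Filter Topology MeasureTheory
open scoped Classical

namespace Vale.Agent.P167Q.N

open Vale.Agent.P167Q.W hiding nr
open Vale.Agent.P167 (Q.ea Q.eb Q.fx Q.f0 Q.FKm Pc.chi Pc.Loc)

namespace NPtx

theorem sub (hb : Base) (hg : X_geo) (n : ℕ) (P : Set Sq → Prop) [DecidablePred P]
    (hP : ∀ C, P C → C ⊆ box n) (ω ω' : Cf) (e : ∀ i ∈ box (n + 1), ω i = ω' i) :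
    (cls ω (box n)).filter P ⊆ (cls ω' (box n)).filter P := by
  intro C hC
  rw [mem_filter] at hC ⊢
  obtain ⟨h1, h2⟩ := hC
  obtain ⟨y, hy, rfl⟩ := mem_image.1 h1
  have hl := hg.loc ω ω' y fun v c i hv =>
    e v ((hb.bas.edb n v c i).2 (mem_coe.1 (hP _ h2 hv)))
  exact ⟨mem_image.2 ⟨y, hy, hl.1⟩, h2⟩

theorem lc (hb : Base) (hg : X_geo) (n : ℕ) (P : Set Sq → Prop) [DecidablePred P]
    (hP : ∀ C, P C → C ⊆ box n) (ω ω' : Cf) (e : ∀ i ∈ box (n + 1), ω i = ω' i) :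
    ((cls ω (box n)).filter P).card = ((cls ω' (box n)).filter P).card := by
  rw [Subset.antisymm (sub hb hg n P hP ω ω' e)
    (sub hb hg n P hP ω' ω fun i hi => (e i hi).symm)]

theorem le (K : Finset ℕ) (n : ℕ) (ω : Cf) : kX K n ω ≤ kC true K n ω + kC false K n ω := by
  refine le_trans (card_le_card fun C hC => ?_) (card_union_le _ _)
  rw [mem_filter] at hC
  obtain ⟨x, hx, rfl⟩ := mem_image.1 hC.1
  rw [mem_union, mem_filter, mem_filter]
  by_cases he : Even (x.1 + x.2)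
  · exact Or.inl ⟨hC.1, hC.2, fun y hy => decide_eq_true ((ZMc.par hy).2 he)⟩
  · exact Or.inr ⟨hC.1, hC.2, fun y hy => decide_eq_false fun h => he ((ZMc.par hy).1 h)⟩

theorem mem_kC {c : Bool} {K : Finset ℕ} {n : ℕ} {ω : Cf} {m : ℕ}
    (h : ∀ A : Finset (Set Sq), (∀ C ∈ A, (∃ x, clus ω x = C) ∧ Big K n C ∧
      ∀ x ∈ C, decide (Even (x.1 + x.2)) = c) → A.card ≤ m) : kC c K n ω ≤ m := by
  unfold kC
  refine h _ fun C hC => ?_
  rw [mem_filter] at hC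
  obtain ⟨x, -, hx⟩ := mem_image.1 hC.1
  exact ⟨⟨x, hx⟩, hC.2⟩

end NPtx

theorem npt_pf {r a : ℝ} {μ : Measure Cf} (h : An r μ a) : N_pt := by
  have hb := h.base
  have hs := h.sh
  refine ⟨fun K n ω ω' e => NPtx.lc hb h.geo n _ (fun C hC => hC.1) ω ω' e,
    fun c K n ω ω' e => NPtx.lc hb h.geo n _ (fun C hC => hC.1.1) ω ω' e, NPtx.le,
    fun κ I L K n ω hK hI => ?_, fun κ I L K n ω hK hI => ?_⟩
  · refine NPtx.mem_kC fun A hA => ZMc.le_kM A id Function.injective_id fun C hC => ?_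
    obtain ⟨⟨x₀, rfl⟩, ⟨-, k, hk, ⟨x, hx, hxC⟩, hS⟩, h3⟩ := hA C hC
    obtain ⟨i, hi, rfl⟩ := hK k hk
    rw [← hb.bas.cleq ω x₀ x hxC] at h3 hS ⊢
    rw [← bz_zero] at hx
    exact ⟨i, hi, x, hI i hx, rfl, hb.bas.self ω x, fun y hy => of_decide_eq_true (h3 y hy), hS⟩
  · refine NPtx.mem_kC fun A hA => ZMc.le_kM A (fun C : Set Sq => {y | y - (-1, 0) ∈ C})
      (fun C C' h => ?_) fun C hC => ?_
    · ext u
      have h4 : u + (-1, 0) ∈ {y | y - (-1, 0) ∈ C} ↔ u + (-1, 0) ∈ {y | y - (-1, 0) ∈ C'} :=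
        Set.ext_iff.1 h _
      simpa only [Set.mem_ofPred_eq, add_sub_cancel_right] using h4
    · obtain ⟨⟨x₀, rfl⟩, ⟨-, k, hk, ⟨x, hx, hxC⟩, hS⟩, h3⟩ := hA C hC
      obtain ⟨i, hi, rfl⟩ := hK k hk
      rw [← hb.bas.cleq _ x₀ x hxC] at h3 hS ⊢
      rw [← bz_zero] at hx
      have e : {y | y - (-1, 0) ∈ clus (sh (-1, 0) ω) x} = clus ω (x + (-1, 0)) := by
        ext y
        rw [Set.mem_ofPred_eq, hs.cl, sub_add_cancel]
      refine ⟨i, hi, x + (-1, 0), hI i ?_, e, hb.bas.self ω _, fun y hy => ?_, fun h => hS ?_⟩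
      · rw [mem_bz] at hx ⊢
        simp only [Prod.fst_add, Prod.snd_add, Prod.fst_sub, Prod.snd_sub, Prod.fst_zero,
          Prod.snd_zero] at hx ⊢
        omega
      · rw [← e] at hy
        have h4 := of_decide_eq_false (h3 _ hy)
        simp only [Prod.fst_sub, Prod.snd_sub, Int.even_iff] at h4 ⊢
        omega
      · intro u hu v hv
        have h4 := h _ ((hs.cl _ ω x u).1 hu) _ ((hs.cl _ ω x v).1 hv)
        simp only [Prod.fst_add, Prod.snd_add] at h4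
        omega

end Vale.Agent.P167Q.N
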