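import Vale.Agent.P167N.NStm
import Vale.Agent.P167W.WLift
import Vale.Agent.P167W.WMix1

/-! P167N: a cut decouples a local function from a wired layer. -/

open Finset Filter Topology MeasureTheory
open scoped Classical

namespace Vale.Agent.P167Q.N

open Vale.Agent.P167Q.W hiding nr
open Vale.Agent.P167 (Q.ea Q.eb Q.fx Q.f0 Q.FKm Pc.chi Pc.Loc)

namespace NQx

theorem off_one (S : Finset Sq) : Off S fun _ => (1 : ℝ) :=
  ⟨⟨∅, fun _ _ _ => rfl, disjoint_empty_left _⟩, fun _ => zero_le_one⟩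

theorem le_lay (L : Finset Sq) (b : Bool) : Le L (Lay L b) := fun ω ω' e =>
  propext (forall₂_congr fun v hv => by rw [e v hv])

theorem lc_lay (L : Finset Sq) (b : Bool) :
    Lc L fun ω => (Lay L b).indicator (1 : Cf → ℝ) ω := fun ω ω' e => by
  have k : ω ∈ Lay L b ↔ ω' ∈ Lay L b := (le_lay L b ω ω' e).to_iff
  by_cases h : ω ∈ Lay L b
  · simp only [Set.indicator_of_mem h, Set.indicator_of_mem (k.1 h), Pi.one_apply]
  · simp only [Set.indicator_of_notMem h, Set.indicator_of_notMem fun h' => h (k.2 h')]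

end NQx

theorem nq_pf {r a : ℝ} {μ : Measure Cf} (h : An r μ a) (hw : N_wir) : N_q μ := by
  intro S T hT
  obtain ⟨L₀, hd, hL₀⟩ := hw S
  refine ⟨L₀, hd, fun L hL hdL F F0 hF => ?_⟩
  have := h.mod.prob
  have r0 : 0 < r := by linarith [h.hr]
  have hA : Lc S fun ω => F ω * Pc.chi (Cut S T ω) := fun ω ω' e =>
    congrArg₂ (· * ·) (WMix1x.lc_mono hF hT ω ω' e) (h.det.lc S T ω ω' e)
  obtain ⟨m, hm⟩ : ∃ m, m = Q.fx r S (fun _ => true) fun ω => F ω * Pc.chi (Cut S T ω) := ⟨_, rfl⟩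
  have hI := NQx.lc_lay L true
  have h1 : m ≤ exm μ F := by
    have k := h.lift r μ h.hr h.fk S (fun _ => m) F (fun _ => 1) ⟨∅, fun _ _ _ => rfl⟩ ⟨T, hF⟩
      (fun ξ => by
        obtain ⟨w, -, -, hw⟩ := h.rep r S T ξ (fun _ => true) h.hr hT fun v _ => le_top
        rw [WMix1x.cst h.lin r0, hm, (hw F hF).1]
        exact (hw F hF).2 F0) (NQx.off_one S)
    simpa [exm] using k
  have h2 := h.lift r μ h.hr h.fk S
    (fun ω => F ω * Pc.chi (Cut S T ω) * (Lay L true).indicator 1 ω)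
    (fun ω => m * (Lay L true).indicator 1 ω) (fun _ => 1)
    ⟨S ∪ L, fun ω ω' e => congrArg₂ (· * ·) (hA ω ω' fun i hi => e i (mem_union_left _ hi))
      (hI ω ω' fun i hi => e i (mem_union_right _ hi))⟩
    ⟨L, fun ω ω' e => congrArg (m * ·) (hI ω ω' e)⟩
    (fun ξ => by
      rw [WLiftx.out r S ξ _ _ L hI hdL, WLiftx.out r S ξ (fun _ => m) _ L hI hdL,
        WMix1x.cst h.lin r0]
      by_cases k : ξ ∈ Lay L true
      · rw [hL₀ r ξ (fun v hv => k v (hL hv)) _ hA, ← hm]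
      · simp only [Set.indicator_of_notMem k, zero_mul, le_refl]) (NQx.off_one S)
  simp only [mul_one] at h2
  refine h2.trans ?_
  unfold exm
  rw [integral_const_mul, integral_indicator_one ((h.base.loc Sq L).2 _ (NQx.le_lay L true)).1]
  exact mul_le_mul_of_nonneg_right h1 measureReal_nonneg

end Vale.Agent.P167Q.N
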