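import Vale.Agent.P167N.NStm
import Vale.Agent.P167Q.YTlo
import Vale.Agent.P167Q.YTup

open Finset Filter Topology MeasureTheory
open scoped Classical

namespace Vale.Agent.P167Q.N

open Vale.Agent.P167Q.W hiding nr
open Vale.Agent.P167 (Q.ea Q.eb Q.fx Q.f0 Q.FKm Pc.chi Pc.Loc)

namespace NTlox

theorem memLp {μ : Measure Cf} [IsProbabilityMeasure μ] {G : Cf → ℝ} (h : Bdm μ G)
    (p : ENNReal) : MemLp G p μ := by
  obtain ⟨h1, M, h2⟩ := h
  exact MemLp.of_bound h1.aestronglyMeasurable M (ae_of_all _ h2)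

theorem key {μ : Measure Cf} {a : ℝ} (hm : Mod μ) (hb : W_bd μ a) {b p q c Z : ℝ}
    (hpq : p.HolderConjugate q) {k : ℕ} {M N X : Cf → ℕ}
    (bf : Bdm μ fun ω => Real.exp (N ω * b / p)) (bg : Bdm μ fun ω => Real.exp (X ω * |b| / p))
    (hI : ∀ ω, M ω ≤ N ω ∧ N ω ≤ M ω + k + X ω)
    (h1 : Real.exp (c / p) ≤ exm μ fun ω => Real.exp (b / p) ^ M ω)
    (h2 : (exm μ fun ω => Real.exp (|b| * q / p) ^ X ω) ≤ Real.exp Z) :
    Real.exp (c - |b| * k - Z * p / q) ≤ exm μ fun ω => Real.exp b ^ N ω := by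
  have := hm.prob
  have p0 := hpq.pos
  have q0 := hpq.symm.pos
  have k1 : (exm μ fun ω => Real.exp (b / p) ^ M ω) ≤ ∫ ω, Real.exp (|b| * k / p) *
      (Real.exp (N ω * b / p) * Real.exp (X ω * |b| / p)) ∂μ := by
    refine integral_mono_of_nonneg (ae_of_all _ fun ω => by positivity)
      ((hb.int _ (hb.mul _ _ bf bg)).const_mul _) (ae_of_all _ fun ω => ?_)
    simp only [← Real.exp_nat_mul, ← Real.exp_add, ← add_div, ← mul_div_assoc]
    refine Real.exp_le_exp.2 (div_le_div_of_nonneg_right ?_ p0.le)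
    have a1 : (M ω : ℝ) ≤ N ω := by exact_mod_cast (hI ω).1
    have a2 : (N ω : ℝ) ≤ M ω + k + X ω := by exact_mod_cast (hI ω).2
    nlinarith [mul_le_mul_of_nonneg_left (neg_abs_le b) (sub_nonneg.2 a1),
      mul_le_mul_of_nonneg_right a2 (abs_nonneg b)]
  have k2 := integral_mul_le_Lp_mul_Lq_of_nonneg hpq (μ := μ)
    (ae_of_all _ fun ω => (Real.exp_pos _).le) (ae_of_all _ fun ω => (Real.exp_pos _).le)
    (memLp bf _) (memLp bg _)
  have e1 : ∫ ω, Real.exp (N ω * b / p) ^ p ∂μ = exm μ fun ω => Real.exp b ^ N ω := by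
    simp only [exm, ← Real.exp_mul, div_mul_cancel₀ _ p0.ne', Real.exp_nat_mul]
  have e2 : ∫ ω, Real.exp (X ω * |b| / p) ^ q ∂μ =
      exm μ fun ω => Real.exp (|b| * q / p) ^ X ω := by
    simp only [exm, ← Real.exp_mul, ← Real.exp_nat_mul]
    exact integral_congr_ae (ae_of_all _ fun ω => congrArg Real.exp (by ring))
  rw [e1, e2] at k2
  have n1 : 0 ≤ exm μ fun ω => Real.exp b ^ N ω := integral_nonneg fun ω => by positivity
  have k3 := Real.rpow_le_rpow (integral_nonneg fun ω => by positivity) h2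
    (by positivity : 0 ≤ 1 / q)
  rw [integral_const_mul] at k1
  have k4 := h1.trans (k1.trans (mul_le_mul_of_nonneg_left
    (k2.trans (mul_le_mul_of_nonneg_left k3 (Real.rpow_nonneg n1 _))) (Real.exp_pos _).le))
  rw [← Real.exp_mul, mul_left_comm, ← Real.exp_add, ← div_le_iff₀ (Real.exp_pos _),
    ← Real.exp_sub] at k4
  have k5 := Real.rpow_le_rpow (Real.exp_pos _).le k4 p0.le
  rw [← Real.exp_mul, one_div p, Real.rpow_inv_rpow n1 p0.ne'] at k5
  refine le_trans (le_of_eq (congrArg _ ?_)) k5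
  field_simp
  ring

theorem fin {g ε l lam m s t J p q C lc B : ℝ} (hlam : 0 < lam) (hm : 0 ≤ m) (hs : 0 ≤ s)
    (ht : 0 ≤ t) (hJ : 0 ≤ J) (hp : 0 < p) (hq : 1 < q) (hC : 0 ≤ C)
    (c1 : (J + t * (m + s)) * lam ≤ l) (c2 : l ≤ (J + (t + 1) * (m + s)) * lam)
    (m3 : p * |lc| + p * C * (s + 1) + |g - ε / 2| * (s * lam) ≤ m * (ε / 4 * lam))
    (hn : B + p * C * (m + s) + |g - ε / 2| * ((J + (m + s)) * lam) ≤ l * (ε / 2)) :
    (g - ε) * l ≤ (g * lam - ε / 4 * lam) * m * t + p * lc * t - B -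
      C * (t * (s + 1) + (m + s)) * p / q := by
  have c3 : C * (t * (s + 1) + (m + s)) * p / q ≤ C * (t * (s + 1) + (m + s)) * p :=
    div_le_self (by positivity) hq.le
  have c4 := mul_le_mul_of_nonneg_right m3 ht
  have c5 : 0 ≤ J * lam := by positivity
  have c5' : 0 ≤ t * s * lam := by positivity
  have c6 := mul_le_mul (le_abs_self (g - ε / 2))
    (show l - t * m * lam ≤ (J + (m + s)) * lam + t * (s * lam) by linarith)
    (by linarith) (abs_nonneg _)
  have c7 := mul_le_mul_of_nonneg_left (neg_abs_le lc) (show 0 ≤ p * t by positivity)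
  linarith

end NTlox

theorem ntlo_pf {r a : ℝ} {μ : Measure Cf} (h : An r μ a) (hl : N_lo μ a) (hp : N_prod μ)
    (ht : N_pt) (hg : N_gen μ) (hc : N_cnt) : N_tlo μ a := by
  intro x x0 x1 ε hε
  have l2 : 0 < Real.log 2 := Real.log_pos (by norm_num)
  have w0 : 0 < Real.cos x / Real.cos a :=
    div_pos (Real.cos_pos_of_mem_Ioo ⟨by linarith [Real.pi_pos], x1⟩)
      (Real.cos_pos_of_mem_Ioo ⟨by linarith [Real.pi_pos, h.a0], by linarith [Real.pi_pos, h.a1]⟩)
  obtain ⟨p, hp1, m₀, hm⟩ := hl x x0 x1 (ε / 4 * Real.log 2) (by positivity)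
  have p0 : 0 < p := by linarith
  have hpq : p.HolderConjugate (p / (p - 1)) :=
    (Real.holderConjugate_iff_eq_conjExponent hp1).2 rfl
  generalize p / (p - 1) = q at hpq
  have q1 := hpq.symm.lt
  rw [← Real.exp_log w0] at hm ⊢
  generalize Real.log (Real.cos x / Real.cos a) = b at hm ⊢
  have T1 : 1 ≤ Real.exp (|b| * q / p) := Real.one_le_exp (by positivity)
  obtain ⟨C, C0, J₂, hg⟩ := hg _ T1
  obtain ⟨s, J₀, c, c0, -, hp⟩ := hp
  obtain ⟨m₁, hm₁⟩ := exists_nat_ge ((p * |Real.log c| + p * C * (s + 1) +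
    |gq a x - ε / 2| * (s * Real.log 2)) / (ε / 4 * Real.log 2))
  obtain ⟨m, m1, m2, m3⟩ : ∃ m : ℕ, m₀ ≤ m ∧ 1 ≤ m ∧ m₁ ≤ m :=
    ⟨m₀ + 1 + m₁, by omega, by omega, by omega⟩
  have m4 := (div_le_iff₀ (by positivity)).1 (hm₁.trans (show (m₁ : ℝ) ≤ m by exact_mod_cast m3))
  obtain ⟨J₁, hJ₁⟩ := eventually_atTop.1 (hm m m1)
  obtain ⟨J, J0, J1, J2⟩ : ∃ J : ℕ, J₀ ≤ J ∧ J₁ ≤ J ∧ J₂ ≤ J :=
    ⟨J₀ + J₁ + J₂, by omega, by omega, by omega⟩
  have hlog : Tendsto (fun n : ℕ => Real.log n) atTop atTop :=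
    Real.tendsto_log_atTop.comp tendsto_natCast_atTop_atTop
  filter_upwards [hlog.eventually_ge_atTop ((|b| * (box (3 * 2 ^ J)).card +
    p * C * (m + s) + |gq a x - ε / 2| * ((J + (m + s)) * Real.log 2)) / (ε / 2)),
    eventually_ge_atTop (2 ^ J)] with n hn hn1
  rw [div_le_iff₀ (by positivity)] at hn
  obtain ⟨t, b1, b2⟩ := YTupx.scale (m := m + s) (by omega) hn1
  obtain ⟨-, K, i1, i2, i3⟩ := hc J m s t n m2 b1 b2
  have n0 : (0 : ℝ) < n := by exact_mod_cast (Nat.two_pow_pos J).trans_le hn1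
  have bf : Bdm μ fun ω => Real.exp (nN n ω * b / p) :=
    h.bd.loc (box (n + 1)) _ fun ω ω' e => by simp only [h.y.loc n ω ω' e]
  have bg : Bdm μ fun ω => Real.exp (kX K n ω * |b| / p) :=
    h.bd.loc (box (n + 1)) _ fun ω ω' e => by simp only [ht.lx K n ω ω' e]
  refine le_trans (Real.exp_le_exp.2 ?_) (NTlox.key h.mod h.bd hpq bf bg i3
    (c := (gq a x * Real.log 2 - ε / 4 * Real.log 2) * m * t + p * Real.log c * t)
    (Z := C * (t * (s + 1) + (m + s))) ?_ ?_)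
  · have c1 := Real.log_le_log (by positivity)
      (show (2 : ℝ) ^ (J + t * (m + s)) ≤ n by exact_mod_cast b1)
    have c2 := Real.log_le_log n0
      (show (n : ℝ) ≤ 2 ^ (J + (t + 1) * (m + s)) by exact_mod_cast b2.le)
    rw [Real.log_pow] at c1 c2
    push_cast at c1 c2
    exact NTlox.fin l2 (Nat.cast_nonneg m) (Nat.cast_nonneg s) (Nat.cast_nonneg t)
      (Nat.cast_nonneg J) p0 q1 C0 c1 c2 m4 hn
  · refine le_trans ?_ (hp _ (Real.exp_pos _).le J J0 m t m2).1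
    have e1 : ((gq a x * Real.log 2 - ε / 4 * Real.log 2) * m * t + p * Real.log c * t) / p =
        t * Real.log c + t * ((gq a x * Real.log 2 - ε / 4 * Real.log 2) * m / p) := by
      field_simp
      ring
    rw [e1, Real.exp_add, Real.exp_nat_mul, Real.exp_nat_mul, Real.exp_log c0]
    refine mul_le_mul_of_nonneg_left ?_ (by positivity)
    rw [← card_range t, ← prod_const, card_range]
    refine prod_le_prod (fun _ _ => (Real.exp_pos _).le) fun i _ => ?_
    have c1 := hJ₁ (J + i * (m + s)) (by omega)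
    rw [← Real.exp_mul, mul_one_div] at c1
    refine (Real.rpow_le_rpow_iff (Real.exp_pos _).le
      (h.r0.mono _ _ _ _ (Real.exp_pos _).le le_rfl).1 p0).1 (le_trans (le_of_eq ?_) c1)
    rw [← Real.exp_mul, div_mul_cancel₀ _ p0.ne']
  · refine (hg K n fun k hk => J2.trans (i2 k hk)).trans (Real.exp_le_exp.2 ?_)
    exact mul_le_mul_of_nonneg_left (by exact_mod_cast i1) C0

end Vale.Agent.P167Q.N
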