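import Vale.Agent.P167N.NStm
import Vale.Agent.P167Q.YTup

open Finset Filter Topology MeasureTheory
open scoped Classical

namespace Vale.Agent.P167Q.N

open Vale.Agent.P167Q.W hiding nr
open Vale.Agent.P167 (Q.ea Q.eb Q.fx Q.f0 Q.FKm Pc.chi Pc.Loc)

namespace NTupx

theorem memL {μ : Measure Cf} [IsProbabilityMeasure μ] {G : Cf → ℝ} (h : Bdm μ G)
    (p : ENNReal) : MemLp G p μ := by
  obtain ⟨h1, M, h2⟩ := h
  exact MemLp.of_bound h1.aestronglyMeasurable M (ae_of_all _ h2)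

theorem holder {μ : Measure Cf} [IsProbabilityMeasure μ] {p q : ℝ} (hpq : p.HolderConjugate q)
    {f g : Cf → ℝ} (hf : Bdm μ f) (hg : Bdm μ g) (f0 : ∀ ω, 0 ≤ f ω) (g0 : ∀ ω, 0 ≤ g ω) :
    (exm μ fun ω => f ω * g ω) ≤
      (exm μ fun ω => f ω ^ p) ^ (1 / p) * (exm μ fun ω => g ω ^ q) ^ (1 / q) :=
  integral_mul_le_Lp_mul_Lq_of_nonneg hpq (Eventually.of_forall f0) (Eventually.of_forall g0)
    (memL hf _) (memL hg _)

theorem root {E P c r y : ℝ} {t : ℕ} (hE : 0 ≤ E) (hP : 0 ≤ P) (hc : 0 < c) (hc1 : c ≤ 1)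
    (hr : 0 ≤ r) (hr1 : r ≤ 1) (h : c ^ t * E ≤ P) (hy : P ^ r ≤ Real.exp y) :
    E ^ r ≤ Real.exp (-Real.log c * t + y) := by
  have h1 : Real.exp (-Real.log c * t) = (c ^ t)⁻¹ := by
    rw [mul_comm, Real.exp_nat_mul, Real.exp_neg, Real.exp_log hc, inv_pow]
  have h2 : 0 < c ^ t := pow_pos hc t
  have h3 : 1 ≤ (c ^ t)⁻¹ := (one_le_inv₀ h2).mpr (pow_le_one₀ hc.le hc1)
  have h4 : E ≤ (c ^ t)⁻¹ * P := (le_inv_mul_iff₀ h2).mpr h
  rw [Real.exp_add, h1]
  refine (Real.rpow_le_rpow hE h4 hr).trans ?_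
  rw [Real.mul_rpow (by linarith) hP]
  exact mul_le_mul (Real.rpow_le_self_of_one_le h3 hr1) hy (Real.rpow_nonneg hP _) (by linarith)

end NTupx

open NTupx in
theorem ntup_pf {r a : ℝ} {μ : Measure Cf} (h : An r μ a) (h0 : N_upx μ a 0) (h1 : N_up1 μ a)
    (hp : N_prod μ) (ht : N_pt) (hg : N_gen μ) (hc : N_cnt) : N_tup μ a := by
  have hprob : IsProbabilityMeasure μ := h.fk.1
  intro x x0 x1 ε hε
  have hx : N_upx μ a x := by
    rcases x0.eq_or_lt with rfl | x0'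
    · exact h0
    · exact h1 x x0' x1
  have hpi := Real.pi_pos
  have hw : 0 < Real.cos x / Real.cos a :=
    div_pos (Real.cos_pos_of_mem_Ioo ⟨by linarith, x1⟩)
      (Real.cos_pos_of_mem_Ioo ⟨by linarith [h.a0], by linarith [h.a1]⟩)
  set w := Real.cos x / Real.cos a with hwd
  set L := max w 1 with hLd
  have hL : 1 ≤ L := le_max_right _ _
  have hL0 : 0 < L := by linarith
  have hl2 : 0 < Real.log 2 := Real.log_pos one_lt_two
  have he : 0 < ε * Real.log 2 / 4 := by positivity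
  obtain ⟨p, hp1, m₀, hm₀⟩ := hx _ he
  have hpq := Real.HolderConjugate.conjExponent hp1
  set q := Real.conjExponent p with hqd
  have hq : 1 < q := hpq.symm.lt
  have hT : 1 ≤ L ^ q := Real.one_le_rpow hL (by linarith)
  obtain ⟨s, J₀, c, hc0, hc1, hJ₀⟩ := hp
  obtain ⟨D, hD, J₂, hJ₂⟩ := hg (L ^ q) hT
  set β : ℝ := -Real.log c + D * (s + 1) + |gq a x| * Real.log 2 * s with hβ
  obtain ⟨m₁, hm₁⟩ := exists_nat_ge (β / (ε * Real.log 2 / 4))
  obtain ⟨m, hma, hmb, hmc⟩ : ∃ m : ℕ, m₀ ≤ m ∧ 1 ≤ m ∧ m₁ ≤ m :=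
    ⟨m₀ + 1 + m₁, by omega, by omega, by omega⟩
  have hn₀ : β ≤ m * (ε * Real.log 2 / 4) :=
    (div_le_iff₀ he).mp (hm₁.trans (by exact_mod_cast hmc))
  obtain ⟨J₁, hJ₁⟩ := eventually_atTop.mp (hm₀ m hma)
  obtain ⟨J, hJa, hJb, hJc⟩ : ∃ J : ℕ, J₀ ≤ J ∧ J₁ ≤ J ∧ J₂ ≤ J :=
    ⟨J₀ + J₁ + J₂, by omega, by omega, by omega⟩
  set k := (box (3 * 2 ^ J)).card with hk
  set C := Real.log (L ^ k) + D * ((m : ℝ) + s) with hC
  have hlog : Tendsto (fun n : ℕ => ε / 2 * Real.log n) atTop atTop :=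
    (Real.tendsto_log_atTop.comp tendsto_natCast_atTop_atTop).const_mul_atTop (by positivity)
  filter_upwards [eventually_ge_atTop (2 ^ J),
    hlog.eventually_ge_atTop (C + |gq a x| * (((J : ℝ) + (m + s)) * Real.log 2))] with n hn hCn
  obtain ⟨t, ht1, ht2⟩ := YTupx.scale (m := m + s) (by omega) hn
  obtain ⟨hM, K, hI1, hI2, hI3⟩ := hc J m s t n hmb ht1 ht2
  have b1 : Bdm μ fun ω => w ^ MG J m s t ω :=
    h.bd.loc (box (n + 1)) _ fun ω ω' hω => by rw [hM ω ω' hω]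
  have b2 : Bdm μ fun ω => L ^ kX K n ω :=
    h.bd.loc (box (n + 1)) _ fun ω ω' hω => by rw [ht.lx K n ω ω' hω]
  have b3 : Bdm μ fun ω => w ^ nN n ω :=
    h.bd.loc (box (n + 1)) _ fun ω ω' hω => by rw [h.y.loc n ω ω' hω]
  have s1 : (exm μ fun ω => w ^ nN n ω) ≤
      L ^ k * exm μ fun ω => w ^ MG J m s t ω * L ^ kX K n ω := by
    unfold exm
    rw [← integral_const_mul]
    exact integral_mono (h.bd.int _ b3) ((h.bd.int _ (h.bd.mul _ _ b1 b2)).const_mul _)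
      fun ω => YTupx.pw hw.le hL (le_max_left _ _) (hI3 ω).1 (hI3 ω).2
  have s2 := holder hpq b1 b2 (fun ω => by positivity) (fun ω => by positivity)
  have s3 : (exm μ fun ω => (w ^ MG J m s t ω) ^ p) ^ (1 / p) ≤ Real.exp (-Real.log c * t +
      (gq a x * Real.log 2 + ε * Real.log 2 / 4) * (m * t)) := by
    simp only [← Real.rpow_pow_comm hw.le]
    have f0 : ∀ i : ℕ, 0 ≤ FFm μ (w ^ p) (J + i * (m + s)) m := fun i =>
      integral_nonneg fun ω => by positivity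
    refine root (integral_nonneg fun ω => by positivity) (prod_nonneg fun i _ => f0 i) hc0 hc1
      (by positivity) ((div_le_one (by linarith)).mpr hp1.le)
      (hJ₀ (w ^ p) (by positivity) J hJa m t hmb).2 ?_
    rw [← Real.finsetProd_rpow _ _ fun i _ => f0 i]
    refine (prod_le_prod (fun i _ => Real.rpow_nonneg (f0 i) _)
      fun i _ => hJ₁ (J + i * (m + s)) (by omega)).trans (le_of_eq ?_)
    rw [prod_const, card_range, ← Real.exp_nat_mul]
    congr 1
    ring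
  have s4 : (exm μ fun ω => (L ^ kX K n ω) ^ q) ^ (1 / q) ≤
      Real.exp (D * ((t : ℝ) * (s + 1) + (m + s))) := by
    simp only [← Real.rpow_pow_comm hL0.le]
    have a1 := hJ₂ K n fun j hj => hJc.trans (hI2 j hj)
    have a2 : (1 : ℝ) ≤ Real.exp (D * K.card) := Real.one_le_exp (by positivity)
    have a3 : 0 ≤ exm μ fun ω => (L ^ q) ^ kX K n ω :=
      integral_nonneg fun ω => by positivity
    refine (Real.rpow_le_rpow a3 a1 (by positivity)).trans ?_
    refine (Real.rpow_le_self_of_one_le a2 ((div_le_one (by linarith)).mpr hq.le)).trans ?_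
    refine Real.exp_le_exp.mpr (mul_le_mul_of_nonneg_left ?_ hD)
    exact_mod_cast hI1
  have s5 := mul_le_mul s3 s4 (Real.rpow_nonneg (integral_nonneg fun ω => by positivity) _)
    (Real.exp_pos _).le
  refine (s1.trans (mul_le_mul_of_nonneg_left (s2.trans s5) (by positivity))).trans ?_
  have n0 : (0 : ℝ) < n := by exact_mod_cast (Nat.two_pow_pos J).trans_le hn
  have l1 : ((J : ℝ) + t * (m + s)) * Real.log 2 ≤ Real.log n := by
    have := Real.log_le_log (by positivity)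
      (show ((2 : ℝ) ^ (J + t * (m + s))) ≤ n by exact_mod_cast ht1)
    rw [Real.log_pow] at this
    exact_mod_cast this
  have l2 : Real.log n ≤ ((J : ℝ) + (t + 1) * (m + s)) * Real.log 2 := by
    have := Real.log_le_log n0
      (show (n : ℝ) ≤ 2 ^ (J + (t + 1) * (m + s)) by exact_mod_cast ht2.le)
    rw [Real.log_pow] at this
    exact_mod_cast this
  have l3 : 0 ≤ (J : ℝ) * Real.log 2 := by positivity
  have l5 := mul_le_mul_of_nonneg_right hn₀ (Nat.cast_nonneg (α := ℝ) t)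
  have l6 : 0 ≤ ε * Real.log 2 / 4 * ((s : ℝ) * t) := by positivity
  have l4 := YTupx.fin (γ := gq a x) (a := ((m : ℝ) + s) * t) (c := β * t) (lam := Real.log 2) hε
    (by linarith) (by linarith) (by linarith) hCn
  have l7 := mul_le_mul_of_nonneg_right (neg_le_abs (gq a x))
    (show 0 ≤ Real.log 2 * ((s : ℝ) * t) by positivity)
  rw [← Real.exp_log (show 0 < L ^ k by positivity), ← Real.exp_add, ← Real.exp_add]
  refine Real.exp_le_exp.mpr (le_trans ?_ l4)
  rw [hC, hβ]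
  linarith

end Vale.Agent.P167Q.N
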