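import Vale.Agent.P167N.NStm
import Vale.Agent.P167Q.YUp1

open Finset Filter Topology MeasureTheory
open scoped Classical

namespace Vale.Agent.P167Q.N

open Vale.Agent.P167Q.W hiding nr
open Vale.Agent.P167 (Q.ea Q.eb Q.fx Q.f0 Q.FKm Pc.chi Pc.Loc)

namespace NUp1x

theorem rate {μ : Measure Cf} {a : ℝ} (h1 : R_1q μ a) (h2 : R_2q μ a) (θ e : ℝ) (he : 0 < e) : ∃ m₀ : ℕ, ∀ m : ℕ, m ≥ m₀ →
    ∀ᶠ J in atTop, -(aq a * θ ^ 2 * m) - θ * bem μ a J m ≤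
      (-(aq a * (θ ^ 2 + 2 * a * θ)) + e) * m := by
  rcases le_total θ 0 with hθ | hθ
  · obtain ⟨C, hC⟩ := h1.1
    obtain ⟨m₀, hm₀⟩ := YUp1x.big (-θ * C) e he
    refine ⟨max m₀ 4, fun m hm => ?_⟩
    filter_upwards [hC m (le_of_max_le_right hm)] with J hJ
    have h3 := hm₀ m (le_of_max_le_left hm)
    have h4 := mul_le_mul_of_nonneg_left hJ (neg_nonneg.mpr hθ)
    nlinarith
  · have he' : 0 < e / (θ + 1) := by positivity
    obtain ⟨m₀, hm₀⟩ := h2 _ he'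
    refine ⟨m₀, fun m hm => ?_⟩
    filter_upwards [hm₀ m hm] with J hJ
    have h4 := mul_le_mul_of_nonneg_left hJ hθ
    have h5 : θ * (e / (θ + 1)) ≤ e := by
      rw [← mul_div_assoc, div_le_iff₀ (by positivity)]
      nlinarith
    have h6 := mul_le_mul_of_nonneg_right h5 (Nat.cast_nonneg (α := ℝ) m)
    nlinarith

theorem two {r₀ a : ℝ} {μ : Measure Cf} (h : An r₀ μ a) (h3 : N_3 μ a) (θ e : ℝ) (h1 : -a < θ) (h2 : θ < Real.pi / 2 - a)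
    (hw : 0 ≤ wq a θ) (he : 0 < e) : ∃ p₀ > (1 : ℝ), ∀ p > (1 : ℝ), p ≤ p₀ → ∃ r : ℝ, 1 / p ≤ r ∧ r ≤ 1 ∧
    ∃ m₀ : ℕ, ∀ m : ℕ, m ≥ m₀ → ∀ᶠ J in atTop, FFm μ (wq a θ ^ (1 / p)) J m ≤
      Real.exp (r * ((-(aq a * (θ ^ 2 + 2 * a * θ)) + 2 * e) * m)) := by
  obtain ⟨m₁, hm₁⟩ := rate h.r1 h.r2 θ e he
  rcases lt_or_ge θ 0 with hθ | hθ
  · obtain ⟨p₀, hp₀, hp⟩ := h3 θ h1 hθ e he
    refine ⟨p₀, hp₀, fun p hp1 hp2 => ⟨1, ?_, le_rfl, ?_⟩⟩
    · rw [div_le_one (by linarith)]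
      exact hp1.le
    obtain ⟨m₀, hm₀⟩ := hp p hp1 hp2
    refine ⟨max m₀ m₁, fun m hm => ?_⟩
    filter_upwards [hm₀ m (le_of_max_le_left hm), hm₁ m (le_of_max_le_right hm)] with J a1 b
    refine a1.trans (Real.exp_le_exp.mpr ?_)
    linarith
  · refine ⟨2, by norm_num, fun p hp1 _ => ⟨1 / p, le_rfl, ?_, ?_⟩⟩
    · rw [div_le_one (by linarith)]
      exact hp1.le
    have hp0 : 0 < p := by linarith
    obtain ⟨C, hC⟩ := h.l1 θ p (by rw [abs_of_nonneg hθ]; exact h2) hp1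
    obtain ⟨m₀, hm₀⟩ := YUp1x.big C e he
    refine ⟨max (max m₀ m₁) 4, fun m hm => ?_⟩
    have g1 := le_of_max_le_left hm
    filter_upwards [hC m (le_of_max_le_right hm), hm₁ m (le_of_max_le_right g1)] with J a1 b
    have g2 := hm₀ m (le_of_max_le_left g1)
    have g3 : 0 ≤ FFm μ (wq a θ ^ (1 / p)) J m :=
      (h.r0.mono _ _ J m (Real.rpow_nonneg hw _) le_rfl).1
    have g4 : FFm μ (wq a θ ^ (1 / p)) J m ^ p ≤
        Real.exp ((-(aq a * (θ ^ 2 + 2 * a * θ)) + 2 * e) * m) :=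
      a1.trans (Real.exp_le_exp.mpr (by linarith))
    have g5 := Real.rpow_le_rpow (Real.rpow_nonneg g3 _) g4 (one_div_pos.mpr hp0).le
    rw [← Real.rpow_mul g3, mul_one_div_cancel hp0.ne', Real.rpow_one, ← Real.exp_mul,
      mul_comm] at g5
    exact g5

theorem ident (a y : ℝ) : -(aq a * ((y - a) ^ 2 + 2 * a * (y - a))) = gq a y * Real.log 2 := by
  unfold aq gq
  ring

end NUp1x

open NUp1x in
theorem nup1_pf {r a : ℝ} {μ : Measure Cf} (h : An r μ a) (h3 : N_3 μ a) : N_up1 μ a := by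
  intro x hx0 hx1 ε hε
  have hpi := Real.pi_pos
  have c1 : Continuous fun t => gq a t * Real.log 2 := by
    unfold gq
    fun_prop
  have e1 : ∀ᶠ t in 𝓝 x, gq a t * Real.log 2 < gq a x * Real.log 2 + ε / 4 :=
    c1.continuousAt.eventually_lt continuousAt_const (by linarith)
  have e2 : ∀ᶠ t in 𝓝[<] x, t ∈ Set.Ioo 0 x := Ioo_mem_nhdsLT hx0
  obtain ⟨y, ⟨hy0, hy1⟩, hy⟩ := (e2.and (e1.filter_mono nhdsWithin_le_nhds)).exists
  have hwy : wq a (y - a) = Real.cos y / Real.cos a := by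
    unfold wq
    rw [add_sub_cancel]
  have ha0 := h.a0
  have ha1 := h.a1
  have hca : 0 < Real.cos a := Real.cos_pos_of_mem_Ioo ⟨by linarith, by linarith⟩
  have hw : 0 < Real.cos x / Real.cos a :=
    div_pos (Real.cos_pos_of_mem_Ioo ⟨by linarith, hx1⟩) hca
  have hww : Real.cos x / Real.cos a < Real.cos y / Real.cos a :=
    div_lt_div_of_pos_right (Real.cos_lt_cos_of_nonneg_of_le_pi hy0.le (by linarith) hy1) hca
  obtain ⟨p₀, hp₀, hp⟩ := two h h3 (y - a) (ε / 4) (by linarith) (by linarith)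
    (by rw [hwy]; linarith) (by linarith)
  rw [ident, hwy] at hp
  set G : ℝ := gq a y * Real.log 2 + 2 * (ε / 4) with hG
  obtain ⟨p, hp1, hp2, hp3, hp4⟩ := YUp1x.pick _ _ |G| (ε / 4) p₀ hw hww (by linarith) hp₀
  obtain ⟨ρ, hr1, hr2, m₀, hm₀⟩ := hp p hp1 hp2
  have hp0 : 0 < p := by linarith
  have hq0 : 0 < 1 / p := one_div_pos.mpr hp0
  have hq1 : 1 / p ≤ 1 := hr1.trans hr2
  refine ⟨p, hp1, m₀, fun m hm => ?_⟩
  filter_upwards [hm₀ m hm] with J a1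
  obtain ⟨b1, b2⟩ := h.r0.mono _ _ J m (Real.rpow_nonneg hw.le _) hp3
  refine (Real.rpow_le_rpow b1 (b2.trans a1) hq0.le).trans ?_
  rw [← Real.exp_mul]
  refine Real.exp_le_exp.mpr ?_
  have g1 : 1 / p * (1 / p) ≤ ρ * (1 / p) := mul_le_mul_of_nonneg_right hr1 hq0.le
  have g2 : ρ * (1 / p) ≤ 1 := by nlinarith
  have g3 : ρ * (1 / p) * G ≤ G + ε / 4 := by
    have g4 := mul_le_mul_of_nonneg_left (neg_le_abs G) (sub_nonneg.mpr g2)
    have g5 := mul_le_mul_of_nonneg_right (sub_le_sub_left g1 1) (abs_nonneg G)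
    nlinarith
  have g6 : ρ * (1 / p) * G ≤ gq a x * Real.log 2 + ε := by linarith
  have g7 := mul_le_mul_of_nonneg_right g6 (Nat.cast_nonneg (α := ℝ) m)
  calc ρ * (G * m) * (1 / p) = ρ * (1 / p) * G * m := by ring
    _ ≤ _ := g7

end Vale.Agent.P167Q.N
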