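import Vale.Agent.P167N.NStm
import Vale.Agent.P167W.WMix

open Finset Filter Topology MeasureTheory
open scoped Classical

namespace Vale.Agent.P167Q.N

open Vale.Agent.P167Q.W hiding nr
open Vale.Agent.P167 (Q.ea Q.eb Q.fx Q.f0 Q.FKm Pc.chi Pc.Loc)

namespace NUrmx

theorem lc_mono {V W : Finset Sq} {F : Cf → ℝ} (h : Lc V F) (hVW : V ⊆ W) : Lc W F :=
  fun ω ω' e => h ω ω' fun i hi => e i (hVW hi)

theorem lc_mul {V W : Finset Sq} {F G : Cf → ℝ} (h : Lc V F) (h' : Lc W G) :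
    Lc (V ∪ W) fun ω => F ω * G ω := fun ω ω' e => by
  show F ω * G ω = F ω' * G ω'
  rw [lc_mono h subset_union_left ω ω' e, lc_mono h' subset_union_right ω ω' e]

theorem off_mul {S T V : Finset Sq} {F G : Cf → ℝ} (h : Lc T F) (h' : Lc V G)
    (hd : Disjoint V S) (h0 : ∀ ω, 0 ≤ F ω) (h0' : ∀ ω, 0 ≤ G ω) :
    Off (S \ T) fun ω => F ω * G ω :=
  ⟨⟨T ∪ V, lc_mul h h', disjoint_union_left.2
    ⟨disjoint_sdiff, hd.mono_right sdiff_subset⟩⟩, fun ω => mul_nonneg (h0 ω) (h0' ω)⟩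

theorem lc_sh {a : ℕ} {F : Cf → ℝ} (h : Lc (box a) F) :
    Lc (bz 0 (a + 1)) fun ω => F (sh (-1, 0) ω) := fun ω ω' e => by
  refine h _ _ fun v hv => ?_
  have : v + (-1, 0) ∈ bz 0 (a + 1) := by
    rw [mem_box] at hv
    rw [mem_bz]
    simp only [Prod.fst_add, Prod.snd_add, Prod.fst_zero, Prod.snd_zero]
    omega
  simp only [sh, e _ this]

theorem le_lay (L : Finset Sq) (b : Bool) : Le L (Lay L b) := fun ω ω' e =>
  propext (forall₂_congr fun v hv => by rw [e v hv])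

theorem sh_lay (L : Finset Sq) (ω : Cf) :
    sh (-1, 0) ω ∈ Lay L true ↔ ω ∈ Lay (L.image (· + (-1, 0))) false := by
  have o1 : decide (Odd ((-1 : ℤ) + 0)) = true := by decide
  simp only [Lay, Set.mem_ofPred_eq, sh, o1, forall_mem_image, Bool.true_xor, Bool.not_eq_true']

theorem bz_mono (z : Sq) {n N : ℕ} (h : n ≤ N) : bz z n ⊆ bz z N := fun v hv => by
  rw [mem_bz] at hv ⊢
  omega

end NUrmx

open NUrmx in
theorem nurm_pf {r a : ℝ} {μ : Measure Cf} (h : An r μ a) (h1 : N_ann μ) (h2 : N_p r μ)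
    (h3 : N_g0 r μ) (h4 : N_q μ) : N_urm μ := by
  obtain ⟨g, n0, c, c0, g2, h1⟩ := h1
  refine ⟨2 * g + 2, n0 + 1, c * c, mul_pos c0 c0, fun b hb F G F0 hF hG => ?_⟩
  have ms : ∀ (V : Finset Sq) (H : Cf → ℝ), Lc V H → Measurable H := fun V H hH =>
    ((h.base.loc Sq V).1 H hH).1
  have hk : g * (b + 1) + 1 + 1 ≤ 2 ^ (2 * g + 2) * b := by
    have := Nat.mul_le_mul_right b (Nat.lt_two_pow_self (n := 2 * g + 2)).le
    have hb1 : 1 ≤ b := by omega
    nlinarith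
  have hnN : b + 1 ≤ g * (b + 1) + 1 := by nlinarith
  have a1 := h1 (b + 1) (by omega) 0 (by simp [mem_box])
  have a2 := h1 (b + 1) (by omega) (1, 0) (by simp [mem_box])
  generalize 2 ^ (2 * g + 2) * b = Q at hk hG
  generalize g * (b + 1) + 1 = N at *
  have hF' := lc_sh hF
  have hG' : Off (bz 0 N) fun ω => G (sh (-1, 0) ω) := by
    refine h.az.off _ _ (-1, 0) G hG fun v hv => ?_
    rw [mem_bz] at hv
    rw [mem_box]
    simp only [Prod.fst_sub, Prod.snd_sub, Prod.fst_zero, Prod.snd_zero] at hv ⊢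
    omega
  obtain ⟨⟨V, hV, -⟩, G0⟩ := hG
  have e1 := WMixx.chg h.mod (-1, 0) (ms _ _ (lc_mul hF hV))
  have e2 := WMixx.chg h.mod (-1, 0) (ms _ _ hV)
  have b1 := h2 (bz 0 N) (bz 0 (b + 1)) _ _ (bz_mono _ hnN) (fun ω => F0 _) hF' hG'
  obtain ⟨⟨V', hV', dV'⟩, -⟩ := hG'
  have b2 := a1 _ (off_mul hF' hV' dV' (fun ω => F0 _) fun ω => G0 _)
  simp only [mul_right_comm _ (G _)] at b2
  rw [e1] at b2
  rw [e2] at b1
  have c1 := b2.trans b1
  obtain ⟨L0, d0, h4⟩ := h4 (bz (1, 0) N) (bz (1, 0) (b + 1)) (bz_mono _ hnN)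
  obtain ⟨L, l1, l2, l3⟩ : ∃ L : Finset Sq, L0 ⊆ L ∧ Disjoint L (bz (1, 0) N) ∧
      bz (1, 0) (N + 1) \ bz (1, 0) N ⊆ L :=
    ⟨L0 ∪ bz (1, 0) (N + 1) \ bz (1, 0) N, subset_union_left,
      disjoint_union_left.2 ⟨d0, sdiff_disjoint⟩, subset_union_right⟩
  have hT : Lc (bz (1, 0) (b + 1)) F := lc_mono hF fun v hv => by
    rw [mem_box] at hv
    rw [mem_bz]
    dsimp only
    omega
  have hI := WMixx.lc_ind (le_lay L true)
  have b3 := h3 (bz 0 N) (L.image (· + (-1, 0))) _ (lc_mono hF' (bz_mono _ hnN))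
    (disjoint_left.2 fun v hv hv' => by
      obtain ⟨w, hw, rfl⟩ := mem_image.1 hv
      refine disjoint_left.1 l2 hw ?_
      rw [mem_bz] at hv' ⊢
      simp only [Prod.fst_add, Prod.snd_add, Prod.fst_zero, Prod.snd_zero] at hv' ⊢
      omega)
    fun e he v hv hv' => mem_image.2 ⟨v - (-1, 0), l3 (by
      rw [Finset.mem_sdiff]
      simp only [mem_bz, Prod.fst_sub, Prod.snd_sub, Prod.fst_zero, Prod.snd_zero] at he hv hv' ⊢
      omega), sub_add_cancel _ _⟩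
  have hind : ∀ ω, (Lay (L.image (· + (-1, 0))) false).indicator (1 : Cf → ℝ) ω =
      (Lay L true).indicator 1 (sh (-1, 0) ω) := fun ω => by
    simp only [Set.indicator_apply, sh_lay, Pi.one_apply]
  have e3 := WMixx.chg h.mod (-1, 0) (ms _ _ (lc_mul hF hI))
  have e4 : μ.real (Lay (L.image (· + (-1, 0))) false) = μ.real (Lay L true) := by
    rw [← integral_indicator_one ((h.base.loc Sq _).2 _ (le_lay _ false)).1,
      ← integral_indicator_one ((h.base.loc Sq _).2 _ (le_lay L true)).1, funext hind]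
    exact WMixx.chg h.mod (-1, 0) (ms _ _ hI)
  simp only [hind] at b3
  rw [e3, e4] at b3
  have b4 := a2 _ (off_mul hT hI l2 F0 (WMixx.ind_nn _))
  simp only [mul_right_comm _ ((Lay L true).indicator 1 _)] at b4
  have c2 := ((mul_le_mul_of_nonneg_left b3 c0.le).trans b4).trans (h4 L l1 l2 F F0 hT)
  rw [← mul_assoc] at c2
  have c3 := le_of_mul_le_mul_right c2 (h.mod.pos L)
  have g0 : 0 ≤ exm μ G := integral_nonneg G0
  calc _ = c * (c * exm μ fun ω => F ω * G ω) := mul_assoc _ _ _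
    _ ≤ c * (_ * exm μ G) := mul_le_mul_of_nonneg_left c1 c0.le
    _ = c * _ * exm μ G := (mul_assoc _ _ _).symm
    _ ≤ _ := mul_le_mul_of_nonneg_right c3 g0

end Vale.Agent.P167Q.N
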