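import Vale.Agent.P167N.NStm

open Finset Filter Topology MeasureTheory
open scoped Classical

namespace Vale.Agent.P167Q.N

open Vale.Agent.P167Q.W hiding nr
open Vale.Agent.P167 (Q.ea Q.eb Q.fx Q.f0 Q.FKm Pc.chi Pc.Loc)

namespace NWirx

open Vale.Agent.P167.Q (Cn nil cf kk cnt)

theorem path {X E : Type} (a b : E → X) (ω : E → Bool) (x y : X) :
    ∃ P : Finset E, (∀ v ∈ P, ω v = true) ∧ ∀ ω' : E → Bool, (∀ v ∈ P, ω' v = true) →
      Cn a b nil ω x y → Cn a b nil ω' x y := by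
  by_cases h : Cn a b nil ω x y
  swap
  · exact ⟨∅, by simp, fun _ _ h' => absurd h' h⟩
  suffices ∃ P : Finset E, (∀ v ∈ P, ω v = true) ∧ ∀ ω' : E → Bool, (∀ v ∈ P, ω' v = true) →
      Cn a b nil ω' x y from this.imp fun P hP => ⟨hP.1, fun ω' h' _ => hP.2 ω' h'⟩
  induction h with
  | rel u w h =>
    obtain ⟨v, hv, e⟩ := h.resolve_right id
    exact ⟨{v}, by simpa, fun ω' h' => .rel _ _ (Or.inl ⟨v, h' v (mem_singleton_self v), e⟩)⟩
  | refl u => exact ⟨∅, by simp, fun _ _ => .refl _⟩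
  | symm u w _ ih => exact ih.imp fun P hP => ⟨hP.1, fun ω' h' => .symm _ _ (hP.2 ω' h')⟩
  | trans u w z _ _ i1 i2 =>
    obtain ⟨P, p1, p2⟩ := i1
    obtain ⟨Q, q1, q2⟩ := i2
    exact ⟨P ∪ Q, fun v hv => (mem_union.1 hv).elim (p1 v) (q1 v), fun ω' h' => .trans _ _ _
      (p2 ω' fun v hv => h' v (mem_union_left _ hv)) (q2 ω' fun v hv => h' v (mem_union_right _ hv))⟩

theorem cls1 {X : Type} {R : X → X → Prop} (hR : Equivalence R) (D : Set X) :
    ((fun x => {y | R x y}) '' D).ncard = ((fun x => {y | y ∈ D ∧ R x y}) '' D).ncard := by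
  rw [← Set.InjOn.ncard_image (f := fun C => D ∩ C), Set.image_image]
  · rfl
  rintro _ ⟨x, hx, rfl⟩ _ ⟨z, -, rfl⟩ h
  have : R z x := (Set.ext_iff.1 h x).1 ⟨hx, hR.refl x⟩ |>.2
  exact Set.ext fun y => ⟨hR.trans this, hR.trans (hR.symm this)⟩

theorem kk_eq {X E : Type} (a b : E → X) (S : Finset E) (ω ω' : E → Bool)
    (h : ∀ x ∈ a '' (S : Set E) ∪ b '' (S : Set E), ∀ y ∈ a '' (S : Set E) ∪ b '' (S : Set E),
      Cn a b nil ω x y ↔ Cn a b nil ω' x y) : kk a b nil S ω = kk a b nil S ω' := by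
  unfold kk
  rw [cls1 (R := Cn a b nil ω) (Relation.EqvGen.is_equivalence _),
    cls1 (R := Cn a b nil ω') (Relation.EqvGen.is_equivalence _)]
  exact congrArg _ (Set.image_congr fun x hx => Set.ext fun y => and_congr_right (h x hx y))

end NWirx

open Vale.Agent.P167.Q (Cn nil cf kk cnt)

theorem nwir_pf : N_wir := by
  intro S
  choose P p1 p2 using fun (A : Finset Sq) (x y : Sq) =>
    NWirx.path Q.ea Q.eb (cf S (fun _ => true) A) x y
  obtain ⟨D, hD⟩ : ∃ D : Finset Sq, (D : Set Sq) = Q.ea '' (S : Set Sq) ∪ Q.eb '' (S : Set Sq) :=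
    ⟨S.image Q.ea ∪ S.image Q.eb, by simp⟩
  refine ⟨(S.powerset.biUnion fun A => D.biUnion fun x => D.biUnion fun y => P A x y) \ S,
    sdiff_disjoint, fun r ξ hξ F hF => ?_⟩
  have e : ∀ A, ∀ v ∈ S, cf S ξ A v = cf S (fun _ => true) A v := fun A v hv => by
    simp only [cf, if_pos hv]
  have w : ∀ A ∈ S.powerset, P167.Q.wt r Q.ea Q.eb nil S (cf S ξ A) =
      P167.Q.wt r Q.ea Q.eb nil S (cf S (fun _ => true) A) := fun A hA => by
    have c : cnt S (cf S ξ A) = cnt S (cf S (fun _ => true) A) :=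
      congrArg card (filter_congr fun v hv => by rw [e A v hv])
    rw [P167.Q.wt, P167.Q.wt, c,
      NWirx.kk_eq _ _ S _ (cf S (fun _ => true) A) fun x hx y hy => ⟨?_, ?_⟩]
    · refine Relation.EqvGen.mono (fun u z h => Or.imp_left ?_ h) x y
      rintro ⟨v, hv, h'⟩
      refine ⟨v, ?_, h'⟩
      by_cases hS : v ∈ S
      · rwa [← e A v hS]
      · simp only [cf, if_neg hS]
    · refine p2 A x y _ fun v hv => ?_
      by_cases hS : v ∈ S
      · rw [e A v hS, p1 A x y v hv]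
      · rw [← hD] at hx hy
        simp only [cf, if_neg hS]
        exact hξ v (mem_sdiff.2 ⟨mem_biUnion.2 ⟨A, hA, mem_biUnion.2 ⟨x, hx,
          mem_biUnion.2 ⟨y, hy, hv⟩⟩⟩, hS⟩)
  unfold P167.Q.fx P167.Q.ex P167.Q.sm
  rw [sum_congr rfl w]
  exact congrArg (· / _) (sum_congr rfl fun A hA => congrArg₂ (· * ·) (w A hA) (hF _ _ (e A)))

end Vale.Agent.P167Q.N
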