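import Vale.Agent.P167N.NCore
import Vale.Agent.P167N.NAnn
import Vale.Agent.P167N.NP
import Vale.Agent.P167N.NG0
import Vale.Agent.P167N.NWir
import Vale.Agent.P167N.NQ
import Vale.Agent.P167N.NUrm
import Vale.Agent.P167N.NProd
import Vale.Agent.P167N.NPt
import Vale.Agent.P167N.NGen
import Vale.Agent.P167N.NCnt
import Vale.Agent.P167N.NHol
import Vale.Agent.P167N.NLo
import Vale.Agent.P167N.N3
import Vale.Agent.P167N.NUp1
import Vale.Agent.P167N.NUp0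
import Vale.Agent.P167N.NTup
import Vale.Agent.P167N.NTlo
import Vale.Agent.P167N.NGa
import Vale.Agent.P167N.NGb

/-! P167N: assembly. -/

open MeasureTheory Filter Topology

namespace Vale.Agent.P167Q.N

open Vale.Agent.P167Q.W hiding nr

theorem goalN_of {r a : ℝ} {μ : Measure Cf} (h : An r μ a) : GoalA μ a ∧ GoalB μ a :=
  have pr := nprod_pf h (nurm_pf h (nann_pf h) (np_pf h) (ng0_pf h) (nq_pf h nwir_pf))
  have pt := npt_pf h
  have ge := ngen_pf h pt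
  have cn := ncnt_pf h
  have u1 := nup1_pf h (n3_pf h)
  have A := nga_pf h (ntup_pf h (nup0_pf h (nhol_pf h) u1) u1 pr pt ge cn)
    (ntlo_pf h (nlo_pf h) pr pt ge cn)
  ⟨A, ngb_pf h A⟩

theorem fp_pow {α : Type} (s : Set α) (p : α → Prop) [∀ x, Decidable (p x)] :
    (∏ᶠ x ∈ s, if p x then (2 : ℝ) else 1) = 2 ^ {x ∈ s | p x}.ncard := by
  have e : (∏ᶠ x ∈ s, if p x then (2 : ℝ) else 1) = ∏ᶠ x ∈ {x ∈ s | p x}, (2 : ℝ) := by
    refine finprod_congr fun x => ?_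
    by_cases h1 : x ∈ s <;> by_cases h2 : p x <;> simp [h1, h2]
  rw [e]
  by_cases h : {x ∈ s | p x}.Finite
  · rw [finprod_mem_eq_finite_toFinset_prod _ h, Finset.prod_const, Set.ncard_eq_toFinset_card _ h]
  · rw [Set.Infinite.ncard h, pow_zero]
    refine finprod_mem_eq_one_of_infinite ?_
    rwa [Function.mulSupport_const (by norm_num), Set.inter_univ]

theorem bij_pf : L_bij :=
  have P := pre_pf
  have hw := P167.Pc.s_w1 P167.Pc.t_bas
  have la := l_a P.hb hw (l_a0 P.hb) (l_a1 hw)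
  (l_bij P.hb hw la (l_b P.hb) (l_c P.hb P.geo hw la (l_b P.hb))).1

open Classical in
theorem nest_eq {ω : Cf} (h1 : AllF ω) (h2 : ∀ e, (P167.Pc.loop ω e).Finite) (n : ℕ) :
    {l ∈ P167.Pc.loops ω | (0, 0) ∈ P167.Pc.ins l ∧
      ∀ y ∈ P167.Pc.ins l, max |y.1| |y.2| ≤ (n : ℤ)}.ncard = nestN n ω := by
  have k := bij_pf ω h1 h2 fun S =>
    if (0, 0) ∈ S ∧ ∀ y ∈ S, max |y.1| |y.2| ≤ (n : ℤ) then (2 : ℝ) else 1
  rw [fp_pow _ fun l => (0, 0) ∈ P167.Pc.ins l ∧ ∀ y ∈ P167.Pc.ins l, max |y.1| |y.2| ≤ (n : ℤ),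
    fp_pow _ fun C => (0, 0) ∈ fill ω C ∧ ∀ y ∈ fill ω C, max |y.1| |y.2| ≤ (n : ℤ)] at k
  rw [pow_right_injective₀ (by norm_num : (0 : ℝ) < 2) (by norm_num) k]
  unfold nestN
  congr 1
  ext C
  refine and_congr_right fun _ => ⟨fun ⟨a, b⟩ => ⟨fun y hy => b y (Or.inl hy), a⟩,
    fun ⟨a, b⟩ => ⟨b, fun y hy => ?_⟩⟩
  obtain ⟨⟨u, u1, u2⟩, ⟨v, v1, v2⟩, ⟨w, w1, w2⟩, z, z1, z2⟩ := pre_pf.geo.bd ω C y hy
  have := a u u1
  have := a v v1
  have := a w w1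
  have := a z z1
  simp only [max_le_iff, abs_le] at *
  omega

end Vale.Agent.P167Q.N
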