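import Vale.Agent.P167N.NStm
import Vale.Agent.P167W.WMix1

/-! P167N: decoupling of a decreasing local function in a general volume. -/

open Finset Relation Filter Topology MeasureTheory
open scoped Classical BigOperators

namespace Vale.Agent.P167Q.W.N

open Vale.Agent.P167 (Q.ea Q.eb Q.fx Q.f0 Q.FKm Pc.chi Pc.Loc)

open WMix1x in
theorem n_mixg (hb : Base) (hl : P167.Q.T_lin) (hp : P167.Q.T_pl) (h1 : V_mon) (h2 : V_det)
    (h3 : V_rep) (h4 : V_lift) : V_mixg := by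
  intro r μ hr hμ S₀ T F G hT F0 hF hA hG
  have := hμ.1
  have r0 : 0 < r := by linarith
  obtain ⟨m, hm⟩ : ∃ m, m = Q.fx r S₀ (fun _ => false) F := ⟨_, rfl⟩
  have hM : Monotone fun ω => -1 * F ω := fun ω ω' h => by
    have := hA h
    show -1 * F ω ≤ -1 * F ω'
    linarith
  have hL : Lc T fun ω => -1 * F ω := fun ω ω' e => congrArg _ (hF ω ω' e)
  have a1 : ∀ ξ, Q.fx r S₀ ξ (fun ω => m * Pc.chi (Cut S₀ T ω)) ≤ Q.fx r S₀ ξ F := fun ξ => by
    obtain ⟨w, w0, wT, hw⟩ := h3 r _ _ ξ ξ hr hT fun _ _ => le_rfl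
    rw [(hw (fun _ => m) fun _ _ _ => rfl).1]
    refine le_trans (sum_le_sum fun S hS => ?_) ((hw F hF).2 F0)
    by_cases h0 : w S = 0
    · rw [h0, zero_mul, zero_mul]
    refine mul_le_mul_of_nonneg_left ?_ (w0 S)
    have k := ((hp r S _ _ hr (mem_powerset.1 hS) hM fun ω ω' e =>
      lc_mono hL (wT S h0) ω ω' fun i hi => e i hi).2 (fun _ => false) (fun _ => 1)
      (fun _ => zero_le_one) fun _ _ _ => rfl).1
    simp only [mul_one, P167.Q.f0] at k ⊢
    rw [cst hl r0, ng hl r0, ng hl r0, ← hm] at k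
    rw [cst hl r0]
    linarith
  have lc1 : Lc S₀ fun ω => m * Pc.chi (Cut S₀ T ω) :=
    fun ω ω' e => congrArg _ (h2.lc _ _ ω ω' e)
  have a2 := h4 r μ hr hμ _ _ F (fun _ => 1) ⟨_, lc1⟩ ⟨_, hF⟩ a1
    ⟨⟨∅, fun _ _ _ => rfl, disjoint_empty_left _⟩, fun _ => zero_le_one⟩
  have e0 : (fun ω => Pc.chi (Cut S₀ T ω)) = {ω | Cut S₀ T ω}.indicator (1 : Cf → ℝ) := by
    funext ω
    by_cases h : Cut S₀ T ω
    · rw [Set.indicator_of_mem (s := {ω | Cut S₀ T ω}) h]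
      exact if_pos h
    · rw [Set.indicator_of_notMem (s := {ω | Cut S₀ T ω}) h]
      exact if_neg h
  have ms : MeasurableSet {ω | Cut S₀ T ω} := by
    have k := ((hb.loc Sq S₀).1 _ (h2.lc S₀ T)).1
    rw [e0] at k
    exact (measurable_indicator_const_iff (1 : ℝ)).1 k
  have a3 : m * μ.real {ω | Cut S₀ T ω} ≤ exm μ F := by
    simp only [mul_one] at a2
    refine le_trans (le_of_eq ?_) a2
    unfold exm
    rw [integral_const_mul, e0, integral_indicator_one ms]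
  have b1 : ∀ ξ, Q.fx r S₀ ξ F ≤ Q.fx r S₀ ξ fun _ => m := fun ξ => by
    have k := h1 r _ (fun _ => false) ξ _ hr (fun _ _ => Bool.false_le _) hM (lc_mono hL hT)
    rw [ng hl r0, ng hl r0, ← hm] at k
    rw [cst hl r0]
    linarith
  have b2 := h4 r μ hr hμ _ F (fun _ => m) G ⟨_, hF⟩ ⟨∅, fun _ _ _ => rfl⟩ b1 hG
  have b3 : (exm μ fun ω => m * G ω) = m * exm μ G := integral_const_mul _ _
  have g0 : 0 ≤ exm μ G := integral_nonneg hG.2
  have p1 : 0 ≤ μ.real {ω | Cut S₀ T ω} := measureReal_nonneg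
  rw [b3] at b2
  calc _ ≤ μ.real {ω | Cut S₀ T ω} * (m * exm μ G) := mul_le_mul_of_nonneg_left b2 p1
    _ = m * μ.real {ω | Cut S₀ T ω} * exm μ G := by ring
    _ ≤ _ := mul_le_mul_of_nonneg_right a3 g0

end Vale.Agent.P167Q.W.N
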