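import Vale.Agent.P167N.NStm

open Finset Relation Filter Topology MeasureTheory
open scoped Classical BigOperators

namespace Vale.Agent.P167Q.W.N

open Vale.Agent.P167 (Q.ea Q.eb Q.fx Q.f0 Q.FKm Pc.chi Pc.Loc)

namespace NRatx

theorem chg {μ : Measure Cf} (hm : Mod μ) (t : Sq) {F : Cf → ℝ} (hF : Measurable F) :
    exm μ (fun ω => F (sh t ω)) = exm μ F := by
  unfold exm
  rw [← integral_map (hm.inv t).measurable.aemeasurable hF.aestronglyMeasurable,
    (hm.inv t).map_eq]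

theorem sh_v (ω : Cf) (v : Sq) : sh (-1, 0) ω v = !ω (v + (-1, 0)) := by
  have o1 : decide (Odd ((-1 : ℤ) + 0)) = true := by decide
  simp only [sh, o1, Bool.true_xor]

theorem meas (hb : Base) {W : Finset Sq} {G : Cf → ℝ} (h : Off W G) : Measurable G := by
  obtain ⟨⟨V, hV, _⟩, _⟩ := h
  exact ((hb.loc Sq V).1 _ hV).1

theorem dual {μ : Measure Cf} {a : ℝ} (h : An μ a) {g : ℕ} (h1 : M_u μ g) (z : Sq) (u : ℕ)
    (F G G₀ : Cf → ℝ) (hu : 1 ≤ u) (F0 : ∀ ω, 0 ≤ F ω) (hF : Lc (bz z u) F)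
    (hG : Off (bz z (g * u + 1)) G) (hG₀ : Off (bz z (g * u + 1)) G₀)
    (ho : ∀ ω, G₀ ω ≠ 0 → ∀ v ∈ bz z (g * u + 3) \ bz z (g * u + 1), ω v = true) :
    (exm μ fun ω => F ω * G ω) * exm μ G₀ ≤ 2 * (exm μ fun ω => F ω * G₀ ω) * exm μ G := by
  have sb : ∀ (n : ℕ) (v : Sq), v ∈ bz (z + (-1, 0)) n ↔ v - (-1, 0) ∈ bz z n := by
    intro n v
    simp only [mem_bz, Prod.fst_sub, Prod.snd_sub, Prod.fst_add, Prod.snd_add]
    omega
  have k := h1 (z + (-1, 0)) u (fun ω => F (sh (-1, 0) ω)) (fun ω => G (sh (-1, 0) ω))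
    (fun ω => G₀ (sh (-1, 0) ω)) hu (fun ω => F0 _)
    (fun ω ω' e => hF _ _ fun v hv => by
      rw [sh_v, sh_v, e _ ((sb u _).2 (by rwa [add_sub_cancel_right]))])
    (h.az.off _ _ _ G hG fun v hv => (sb _ v).1 hv)
    (h.az.off _ _ _ G₀ hG₀ fun v hv => (sb _ v).1 hv)
    (fun ω hω v hv => by
      rw [Finset.mem_sdiff, sb, sb, ← Finset.mem_sdiff] at hv
      have := ho _ hω _ hv
      rw [sh_v, sub_add_cancel] at this
      simpa using this)
  have mF : Measurable F := ((h.base.loc Sq _).1 _ hF).1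
  have mG := meas h.base hG
  have mG₀ := meas h.base hG₀
  rw [chg h.md (-1, 0) (F := fun ω => F ω * G ω) (mF.mul mG), chg h.md (-1, 0) mG,
    chg h.md (-1, 0) (F := fun ω => F ω * G₀ ω) (mF.mul mG₀), chg h.md (-1, 0) mG₀] at k
  exact k

end NRatx

open NRatx in
theorem n_rat {μ : Measure Cf} {a : ℝ} (h : An μ a) {g : ℕ} (hg : 2 ≤ g) (h1 : M_u μ g)
    (h2 : M_l μ g) : M_rat μ := by
  refine ⟨g, hg, fun z u F G hu F0 hF hG => ?_⟩
  have := h.md.prob
  obtain ⟨D, d1, d2, d3⟩ := h2 z u hu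
  have c0 : ∀ ω : Cf, 0 ≤ Pc.chi (∀ v ∈ D, ω v = true) := fun ω => by
    unfold P167.Pc.chi
    split_ifs <;> norm_num
  have le : Le D {ω : Cf | ∀ v ∈ D, ω v = true} := fun ω ω' e =>
    propext (forall₂_congr fun v hv => by rw [e v hv])
  have o1 : Off (bz z (g * u + 1)) fun ω => Pc.chi (∀ v ∈ D, ω v = true) :=
    ⟨⟨D, fun ω ω' e => congrArg Pc.chi (le ω ω' e), d1⟩, c0⟩
  have o2 : Off (bz z (g * u + 1)) fun _ => (1 : ℝ) :=
    ⟨⟨∅, fun _ _ _ => rfl, disjoint_empty_left _⟩, fun _ => zero_le_one⟩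
  have ho : ∀ ω : Cf, Pc.chi (∀ v ∈ D, ω v = true) ≠ 0 →
      ∀ v ∈ bz z (g * u + 3) \ bz z (g * u + 1), ω v = true := fun ω hω v hv => by
    by_contra k
    exact hω (if_neg fun k' => k (k' v (d2 hv)))
  have p0 : 0 < exm μ fun ω => Pc.chi (∀ v ∈ D, ω v = true) := by
    have e := integral_indicator_one (μ := μ) ((h.base.loc Sq D).2 _ le).1
    refine (h.md.pos D).trans_eq (e.symm.trans ?_)
    refine integral_congr_ae (Eventually.of_forall fun ω => ?_)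
    by_cases k : ∀ v ∈ D, ω v = true
    · exact (Set.indicator_of_mem (show ω ∈ {ω : Cf | ∀ v ∈ D, ω v = true} from k) _).trans
        (if_pos k).symm
    · exact (Set.indicator_of_notMem (show ω ∉ {ω : Cf | ∀ v ∈ D, ω v = true} from k) _).trans
        (if_neg k).symm
  have e1 : (exm μ fun _ => (1 : ℝ)) = 1 := by simp [exm]
  have a1 := dual h h1 z u F _ _ hu F0 hF o2 o1 ho
  have a2 := d3 F G F0 hF hG
  have a3 := dual h h1 z u F G _ hu F0 hF hG o1 ho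
  have a4 := d3 F _ F0 hF o2
  simp only [mul_one, e1] at a1 a4
  have g0 : 0 ≤ exm μ G := integral_nonneg hG.2
  have b1 := mul_le_mul_of_nonneg_right a1 g0
  have b2 := mul_le_mul_of_nonneg_right a4 g0
  constructor
  · refine le_of_mul_le_mul_right ?_ p0
    linarith
  · refine le_of_mul_le_mul_right ?_ p0
    linarith

end Vale.Agent.P167Q.W.N
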