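import Vale.Agent.P167N.NMain

/-! P167N: everything for one value of `q`. -/

open MeasureTheory Filter Topology Vale.Agent.P152 Vale.Agent.P167.Pc Vale.Agent.P167.Q

namespace Vale.Agent.P167Q.N

theorem field {q : ℝ} (h1 : 1 ≤ q) (h4 : q ≤ 4) {φ : Measure Bond} (hφ : FKm √q φ) :
    (∀ᵐ ω ∂φ, ∀ e, (loop ω e).Finite) ∧ ∀ f : ℝ × ℝ → ℝ, IsTest f →
      (∀ δ > 0, (∀ ω, {l ∈ P167.Pc.loops ω | mass δ f l ≠ 0}.Finite) ∧ Integrable (Phq q δ f) φ) ∧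
      Tendsto (fun δ => ∫ ω, Phq q δ f ω ∂φ) (𝓝[>] 0)
        (𝓝 (Real.exp (-(4 * Real.pi / Real.arccos (-√q / 2) / (4 * Real.pi)) * gcov f f))) := by
  refine q_goal h1 h4 hφ (fun c c1 c2 => ?_) u_tex
    (t_cut P167.Pc.t_gl u_gl s_int) (u_arm _ φ (ang h1 h4).2.2.2.1 hφ) (s_rep s_repA)
    P167.Pc.t_phi (P167.Q.t_phi t_bas t_wind t_turn) s_gauss
  obtain ⟨P, hP, K, h0, hK, hG⟩ := main_all c1 c2
  exact ⟨P, hP, _, (Real.sq_sqrt h0.le).trans (k_value c1 c2 hK), hG⟩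

theorem core_q {q : ℝ} (h1 : 1 ≤ q) (h4 : q ≤ 4) {φ : Measure Bond} (hφ : FKm √q φ) :
    An √q φ (Real.arccos (√q / 2)) ∧ U.Au φ (W.al (Real.arccos (√q / 2))) :=
  have n := W.U.z_num q h1 h4
  have f := field h1 h4 hφ
  core_of (ang h1 h4).2.2.2.1 (ang h1 h4).2.2.2.2 hφ n.1 fun hf =>
    W.goalq_of (W.phq_of pre_pf (s_w1 t_bas)) h1 h4 hf f.1 n.2.1 fun g hg => (f.2 g hg).2

theorem nest_q {q : ℝ} (h1 : 1 ≤ q) (h4 : q ≤ 4) {φ : Measure Bond} (hφ : FKm √q φ)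
    {κ l : ℝ} (hκ : κ = 4 * Real.pi / Real.arccos (-√q / 2)) (hl : l = Real.arccos (√q / 2))
    {N : ℕ → Bond → ℕ} (hN : ∀ n ω, N n ω = {γ ∈ P167.Pc.loops ω | (0, 0) ∈ ins γ ∧
      ∀ y ∈ ins γ, max |y.1| |y.2| ≤ (n : ℤ)}.ncard) :
    (∀ x : ℝ, 0 ≤ x → x ≤ Real.pi / 2 → Tendsto (fun n : ℕ =>
      Real.log (∫ ω, (2 * Real.cos x / √q) ^ N n ω ∂φ) / Real.log n) atTop
      (𝓝 (κ * (l ^ 2 - x ^ 2) / (8 * Real.pi ^ 2)))) ∧
    (q < 4 → Tendsto (fun n : ℕ => (∫ ω, (N n ω : ℝ) ∂φ) / Real.log n) atTop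
      (𝓝 (κ * l / (4 * Real.pi ^ 2 * Real.tan l)))) := by
  obtain ⟨a0, a3, ac, b1, b2⟩ := ang h1 h4
  have p := Real.pi_pos
  have c := (core_q h1 h4 hφ).1
  have fin := (W.core0 pre_pf b1 b2 hφ).fin
  have e : ∀ n, ∀ᵐ ω ∂φ, N n ω = nestN n ω := fun n => by
    filter_upwards [fin, (field h1 h4 hφ).1] with ω k1 k2
    rw [hN, nest_eq k1 k2]
  have hk : κ = 4 * Real.pi / (Real.pi - l) := by
    rw [hκ, hl, neg_div, Real.arccos_neg]
  rw [← hl] at a0 a3 ac c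
  have d : Real.pi - l ≠ 0 := by linarith
  obtain ⟨A, B⟩ := goalN_of c
  refine ⟨fun x x0 x1 => ?_, fun q4 => ?_⟩
  · have e1 : κ * (l ^ 2 - x ^ 2) / (8 * Real.pi ^ 2) =
        (l ^ 2 - x ^ 2) / (2 * Real.pi * (Real.pi - l)) := by
      rw [hk]
      field_simp
      ring
    rw [e1, ← ac, mul_div_mul_left _ _ two_ne_zero]
    refine (A x x0 x1).congr fun n => ?_
    congr 2
    exact integral_congr_ae ((e n).mono fun ω h => by simp only [h])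
  · have l0 : 0 < l := by
      rw [hl, Real.arccos_pos, div_lt_one two_pos]
      exact Real.sqrt_lt' two_pos |>.2 (by linarith)
    have t0 : Real.tan l ≠ 0 := (Real.tan_pos_of_pos_of_lt_pi_div_two l0 (by linarith)).ne'
    have e1 : κ * l / (4 * Real.pi ^ 2 * Real.tan l) =
        l / (Real.pi * (Real.pi - l) * Real.tan l) := by
      rw [hk]
      field_simp
    rw [e1]
    refine (B l0).congr fun n => ?_
    congr 1
    exact integral_congr_ae ((e n).mono fun ω h => by simp only [h])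

end Vale.Agent.P167Q.N
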