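import Vale.Agent.P167N.NStm
import Vale.Agent.P167W.WTv
import Vale.Agent.P167W.WMix1

/-! P167N: comparison with a closed layer. -/

open Finset Relation Filter Topology MeasureTheory
open scoped Classical BigOperators

namespace Vale.Agent.P167Q.W.N

open Vale.Agent.P167 (Q.ea Q.eb Q.fx Q.f0 Q.FKm Pc.chi Pc.Loc)

namespace NUx

theorem cg (r : ℝ) (S : Finset Sq) (ξ : Cf) {F F' : Cf → ℝ}
    (h : ∀ ω : Cf, (∀ v ∉ S, ω v = ξ v) → F ω = F' ω) : Q.fx r S ξ F = Q.fx r S ξ F' := by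
  unfold Q.fx P167.Q.ex P167.Q.sm
  refine congrArg (· / _) (sum_congr rfl fun A _ => ?_)
  show _ * F _ = _ * F' _
  rw [h _ fun v hv => by simp only [P167.Q.cf, if_neg hv]]

theorem na (w : Sq) : w.1 - 1 ≤ (Q.ea w).1 ∧ (Q.ea w).1 ≤ w.1 ∧
    w.2 - 1 ≤ (Q.ea w).2 ∧ (Q.ea w).2 ≤ w.2 := by
  unfold Q.ea
  split_ifs <;> simp

theorem nb (w : Sq) : w.1 - 1 ≤ (Q.eb w).1 ∧ (Q.eb w).1 ≤ w.1 ∧
    w.2 - 1 ≤ (Q.eb w).2 ∧ (Q.eb w).2 ≤ w.2 := by
  unfold Q.eb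
  split_ifs <;> simp

theorem far {z v e : Sq} {N : ℕ} (hv : v ∉ bz z (N + 3)) (he : e ∈ bz z (N + 1)) :
    Q.ea v ≠ Q.ea e ∧ Q.ea v ≠ Q.eb e ∧ Q.eb v ≠ Q.ea e ∧ Q.eb v ≠ Q.eb e := by
  rw [mem_bz] at hv he
  push_cast at hv he
  have a1 := na v
  have a2 := nb v
  have a3 := na e
  have a4 := nb e
  refine ⟨fun h => ?_, fun h => ?_, fun h => ?_, fun h => ?_⟩
  · rw [h] at a1; omega
  · rw [h] at a1; omega
  · rw [h] at a2; omega
  · rw [h] at a2; omega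

end NUx

open NUx WTvx WMix1x in
theorem n_u (_hb : Base) (hl : P167.Q.T_lin) (hz : W_az) (h1 : V_base) (h2 : V_det) (h3 : V_rep)
    (h4 : V_lift) : V_u := by
  intro r μ g hr hμ hg hT z u F G G₀ hu F0 hF hG hG₀ hc
  have := hμ.1
  have r0 : 0 < r := by linarith
  have a3 := fun H => hT true z u H hu
  have hn : u ≤ g * u := Nat.le_mul_of_pos_left _ (by omega)
  generalize g * u = N at *
  have hS : bz z u ⊆ bz z (N + 1) := fun x hx => by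
    rw [mem_bz] at hx ⊢
    push_cast
    omega
  obtain ⟨m, hm⟩ : ∃ m, m = Q.f0 r (bz z (N + 1)) F := ⟨_, rfl⟩
  have I : ∀ {H : Cf → ℝ}, Pc.Loc H → Integrable H μ := fun h =>
    P167.Q.Qm.intg P167.Pc.s_int μ h
  have lF : Pc.Loc F := ⟨_, hF⟩
  have lC : Pc.Loc fun ω => F ω * Pc.chi (Cut (bz z (N + 1)) (bz z u) ω) :=
    P167.Q.Qm.loc_mul lF ⟨_, h2.lc _ _⟩
  have a1 : ∀ ξ, Q.fx r (bz z (N + 1)) ξ (fun ω => F ω * Pc.chi (Cut (bz z (N + 1)) (bz z u) ω)) ≤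
      Q.fx r (bz z (N + 1)) ξ fun _ => m := fun ξ => by
    obtain ⟨w, -, -, hw⟩ := h3 r _ _ (fun _ => false) ξ hr hS fun v _ => Bool.false_le _
    obtain ⟨w1, w2⟩ := hw F hF
    rw [cst hl r0, hm]
    exact w1.trans_le (w2 F0)
  have a2 := h4 r μ hr hμ _ _ (fun _ => m) G lC ⟨∅, fun _ _ _ => rfl⟩ a1 hG
  have e2 : (exm μ fun ω => m * G ω) = m * exm μ G := integral_const_mul _ _
  rw [e2] at a2
  have hO : Off (bz z (N + 1) \ bz z u) fun ω => F ω * G ω := by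
    obtain ⟨⟨V, hV, hd⟩, G0⟩ := hG
    refine ⟨⟨bz z u ∪ V, fun ω ω' e => ?_, ?_⟩, fun ω => mul_nonneg (F0 ω) (G0 ω)⟩
    · show F ω * G ω = F ω' * G ω'
      rw [hF ω ω' fun i hi => e i (mem_union_left _ hi),
        hV ω ω' fun i hi => e i (mem_union_right _ hi)]
    · exact disjoint_union_left.2 ⟨disjoint_sdiff, hd.mono_right sdiff_subset⟩
  have a4 := a3 _ hO
  have i1 := I (P167.Q.Qm.loc_mul lC (loc_off hG))
  have i2 := I (P167.Q.Qm.loc_mul ⟨_, loc_ind hz z (u + 1) N⟩ (loc_off hO))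
  have a5 : (exm μ fun ω => F ω * G ω) ≤
      (exm μ fun ω => F ω * Pc.chi (Cut (bz z (N + 1)) (bz z u) ω) * G ω) +
        exm μ fun ω => (AZ true z (u + 1) N).indicator 1 ω * (F ω * G ω) := by
    unfold exm
    rw [← integral_add i1 i2]
    refine integral_mono (I (loc_off hO)) (i1.add i2) fun ω => ?_
    show F ω * G ω ≤ F ω * Pc.chi (Cut (bz z (N + 1)) (bz z u) ω) * G ω +
      (AZ true z (u + 1) N).indicator 1 ω * (F ω * G ω)
    by_cases hω : ω ∈ AZ true z (u + 1) N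
    · have : 0 ≤ F ω * Pc.chi (Cut (bz z (N + 1)) (bz z u) ω) * G ω := by
        refine mul_nonneg (mul_nonneg (F0 ω) ?_) (hG.2 ω)
        unfold Pc.chi
        split_ifs <;> norm_num
      rw [Set.indicator_of_mem hω, Pi.one_apply]
      linarith
    · rw [Set.indicator_of_notMem hω, Pc.chi, if_pos (h2.az z u N ω hω), mul_one, zero_mul,
        add_zero]
  obtain ⟨X, hX⟩ : ∃ X : Cf → ℝ,
      X = fun ω => Pc.chi (∀ v ∈ bz z (N + 3) \ bz z (N + 1), ω v = false) := ⟨_, rfl⟩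
  have cX : Lc (bz z (N + 3) \ bz z (N + 1)) X := fun ω ω' e => by
    rw [hX]
    exact congrArg Pc.chi (propext (forall₂_congr fun v hv => by rw [e v hv]))
  have dX : ∀ ξ ω : Cf, (∀ v ∉ bz z (N + 1), ω v = ξ v) → X ω = X ξ := fun ξ ω e =>
    cX ω ξ fun v hv => e v (mem_sdiff.1 hv).2
  have b1 : ∀ ξ, Q.fx r (bz z (N + 1)) ξ (fun ω => m * X ω) ≤
      Q.fx r (bz z (N + 1)) ξ fun ω => F ω * X ω := fun ξ => by
    rw [cg r _ ξ (F' := fun _ => m * X ξ) fun ω e => by rw [dX ξ ω e], cst hl r0]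
    by_cases hξ : ∀ v ∈ bz z (N + 3) \ bz z (N + 1), ξ v = false
    · have x1 : X ξ = 1 := by rw [hX]; exact if_pos hξ
      rw [cg r _ ξ (F' := F) fun ω e => by rw [dX ξ ω e, x1, mul_one], x1, mul_one, hm]
      refine (h1 r _ ξ F (lc_mono hF hS) fun v hv ho e he => far (fun k => ?_) he).ge
      rw [hξ v (mem_sdiff.2 ⟨k, hv⟩)] at ho
      exact Bool.false_ne_true ho
    · have x0 : X ξ = 0 := by rw [hX]; exact if_neg hξ
      rw [cg r _ ξ (F' := fun _ => 0) fun ω e => by rw [dX ξ ω e, x0, mul_zero], cst hl r0, x0,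
        mul_zero]
  have b2 := h4 r μ hr hμ _ _ _ G₀ (P167.Q.Qm.loc_mul ⟨∅, fun _ _ _ => rfl⟩ ⟨_, cX⟩)
    (P167.Q.Qm.loc_mul lF ⟨_, cX⟩) b1 hG₀
  have eX : ∀ ω, X ω * G₀ ω = G₀ ω := fun ω => by
    by_cases k : G₀ ω = 0
    · rw [k, mul_zero]
    · have x1 : X ω = 1 := by rw [hX]; exact if_pos (hc ω k)
      rw [x1, one_mul]
  simp only [mul_assoc, eX] at b2
  have e3 : (exm μ fun ω => m * G₀ ω) = m * exm μ G₀ := integral_const_mul _ _
  rw [e3] at b2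
  have g0 : 0 ≤ exm μ G := integral_nonneg hG.2
  have g1 : 0 ≤ exm μ G₀ := integral_nonneg hG₀.2
  have a6 : (exm μ fun ω => F ω * G ω) ≤ 2 * (m * exm μ G) := by linarith
  calc _ ≤ 2 * (m * exm μ G) * exm μ G₀ := mul_le_mul_of_nonneg_right a6 g1
    _ = 2 * (m * exm μ G₀) * exm μ G := by ring
    _ ≤ _ := mul_le_mul_of_nonneg_right (by linarith) g0

end Vale.Agent.P167Q.W.N
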