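import Vale.Agent.P167N.NStm
import Vale.Agent.P167Q.YUp0

/-! P167N, nesting spectrum: the upper bound at the end point. -/

open Finset Filter Topology MeasureTheory
open scoped Classical

namespace Vale.Agent.P167Q.N

open Vale.Agent.P167Q.W hiding nr
open Vale.Agent.P167 (Q.ea Q.eb Q.fx Q.f0 Q.FKm Pc.chi Pc.Loc)

namespace NUp0x

theorem pw {u : ℝ} (hu : 0 < u) (s : ℝ) : u ^ ((1 + s) * (1 + s)) =
    (u ^ (1 - s)) ^ (1 - s) * (u ^ (4 : ℝ)) ^ s := by
  rw [← Real.rpow_mul hu.le, ← Real.rpow_mul hu.le, ← Real.rpow_add hu]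
  exact congrArg _ (by ring)

theorem p16 {u : ℝ} (h0 : 0 ≤ u) (h2 : u ≤ 2) : u ^ (4 : ℝ) ≤ 16 := by
  rw [show (4 : ℝ) = ((4 : ℕ) : ℝ) by norm_num, Real.rpow_natCast]
  exact (pow_le_pow_left₀ h0 h2 4).trans (by norm_num)

end NUp0x

theorem nup0_pf {r a : ℝ} {μ : Measure Cf} (h : An r μ a) (hh : N_hol μ) (h1 : N_up1 μ a) :
    N_upx μ a 0 := by
  intro ε hε
  have pi0 := Real.pi_pos
  rcases h.a0.eq_or_lt with ha | ha
  · refine ⟨2, one_lt_two, 0, fun m _ => Eventually.of_forall fun J => ?_⟩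
    subst ha
    rw [Real.cos_zero, div_one, Real.one_rpow, h.r0.one, Real.one_rpow]
    refine Real.one_le_exp ?_
    have : gq 0 0 = 0 := by simp [gq]
    rw [this, zero_mul, zero_add]
    positivity
  have c1 : 1 / 2 ≤ Real.cos a := by
    rw [← Real.cos_pi_div_three]
    exact Real.cos_le_cos_of_nonneg_of_le_pi h.a0 (by linarith) h.a1
  have c0 : 0 < Real.cos a := by linarith
  have c2 : Real.cos a < 1 := by
    rw [← Real.cos_zero]
    exact Real.cos_lt_cos_of_nonneg_of_le_pi le_rfl (by linarith [h.a1]) ha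
  rw [Real.cos_zero]
  obtain ⟨u, hu⟩ : ∃ u : ℝ, u = 1 / Real.cos a := ⟨_, rfl⟩
  rw [← hu]
  have u1 : 1 < u := hu ▸ (one_lt_div c0).2 c2
  have u2 : u ≤ 2 := by
    rw [hu, div_le_iff₀ c0]
    linarith
  have u0 : 0 < u := by linarith
  obtain ⟨CK, J₀, hK⟩ := h.kmid
  obtain ⟨s, s0, s1, s2⟩ := YUp0x.pick CK ε hε
  obtain ⟨w, hw⟩ : ∃ w : ℝ, w = u ^ (1 - s) := ⟨_, rfl⟩
  have w1 : 1 ≤ w := hw ▸ Real.one_le_rpow u1.le (by linarith)
  have w2 : w < u := by
    have := Real.rpow_lt_rpow_of_exponent_lt u1 (show 1 - s < 1 by linarith)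
    rwa [Real.rpow_one, ← hw] at this
  have w3 : w * Real.cos a < 1 := by rwa [hu, lt_div_iff₀ c0] at w2
  have w4 : 0 < w * Real.cos a := mul_pos (by linarith) c0
  have hc : Real.cos (Real.arccos (w * Real.cos a)) / Real.cos a = w := by
    rw [Real.cos_arccos (by linarith) w3.le, mul_div_cancel_right₀ _ c0.ne']
  obtain ⟨q, q1, m₀, hq⟩ := h1 (Real.arccos (w * Real.cos a)) (Real.arccos_pos.2 w3)
    (Real.arccos_lt_pi_div_two.2 w4) (ε / 2) (by positivity)
  rw [hc] at hq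
  have hg : gq a (Real.arccos (w * Real.cos a)) ≤ gq a 0 := by
    unfold gq
    refine div_le_div_of_nonneg_right ?_ (mul_nonneg (by positivity) (by linarith [h.a1]))
    nlinarith [sq_nonneg (Real.arccos (w * Real.cos a))]
  have p1 : 1 < ((1 + s) * (1 + s)) := by nlinarith
  refine ⟨((1 + s) * (1 + s)), p1, max m₀ 1, fun m hm => ?_⟩
  filter_upwards [hq m (le_of_max_le_left hm), eventually_ge_atTop J₀] with J k1 k2
  have k3 := hK J k2 m (le_of_max_le_right hm)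
  have q0 : 0 < q := by linarith
  have a1 : 1 ≤ FFm μ w J m := (h.r0.one J m).symm.trans_le (h.r0.mono 1 w J m zero_le_one w1).2
  have a2 : FFm μ w J m ≤ FFm μ (w ^ q) J m ^ (1 / q) := by
    have := hh 1 (w ^ q) (1 / q) J m one_pos (Real.rpow_pos_of_pos (by linarith) _)
      (by positivity) ((div_lt_one q0).2 q1)
    rwa [h.r0.one, Real.one_rpow, one_mul, one_mul, ← Real.rpow_mul (by linarith),
      mul_one_div_cancel q0.ne', Real.rpow_one] at this
  have a3 := hh w (u ^ (4 : ℝ)) s J m (by linarith) (Real.rpow_pos_of_pos u0 _) s0 s1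
  rw [hw, ← NUp0x.pw u0, ← hw] at a3
  have a4 : 1 ≤ FFm μ (u ^ ((1 + s) * (1 + s))) J m := (h.r0.one J m).symm.trans_le
    (h.r0.mono 1 _ J m zero_le_one (Real.one_le_rpow u1.le (by positivity))).2
  have a5 : FFm μ (u ^ ((1 + s) * (1 + s))) J m ^ (1 / ((1 + s) * (1 + s))) ≤
      FFm μ (u ^ ((1 + s) * (1 + s))) J m := by
    have := Real.rpow_le_rpow_of_exponent_le a4
      ((div_le_one (by positivity)).2 p1.le : 1 / ((1 + s) * (1 + s)) ≤ 1)
    rwa [Real.rpow_one] at this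
  have a6 : FFm μ w J m ^ (1 - s) ≤ FFm μ w J m := by
    have := Real.rpow_le_rpow_of_exponent_le a1 (show 1 - s ≤ 1 by linarith)
    rwa [Real.rpow_one] at this
  obtain ⟨f0, f16⟩ := h.r0.mono (u ^ (4 : ℝ)) 16 J m (Real.rpow_nonneg u0.le _)
    (NUp0x.p16 u0.le u2)
  have a7 : FFm μ (u ^ (4 : ℝ)) J m ^ s ≤ Real.exp (ε / 2 * m) := by
    refine (Real.rpow_le_rpow f0 (f16.trans k3) s0.le).trans ?_
    rw [← Real.exp_mul]
    exact Real.exp_le_exp.2 (by nlinarith [Nat.cast_nonneg (α := ℝ) m])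
  refine a5.trans (a3.trans ((mul_le_mul ((a6.trans a2).trans k1) a7 (Real.rpow_nonneg f0 _)
    (Real.exp_pos _).le).trans ?_))
  rw [← Real.exp_add]
  refine Real.exp_le_exp.2 ?_
  have l2 := mul_le_mul_of_nonneg_right (mul_le_mul_of_nonneg_right hg
    (Real.log_nonneg one_le_two)) (Nat.cast_nonneg (α := ℝ) m)
  linarith

end Vale.Agent.P167Q.N
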