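import Vale.Agent.P167N.NStm
import Vale.Agent.P167W.WSup
import Vale.Agent.P167W.WStep

/-! P167N: finitely many open bonds act as the wired boundary condition. -/

open Finset Relation Filter Topology MeasureTheory
open scoped Classical BigOperators

namespace Vale.Agent.P167Q.W.N

open Vale.Agent.P167 (Q.ea Q.eb Q.fx Q.f0 Q.FKm Pc.chi Pc.Loc)

namespace NWitx

theorem mono {ω ω' : Cf} (h : ∀ v, ω v = true → ω' v = true) {x y : Sq}
    (hc : P167.Q.Cn Q.ea Q.eb P167.Q.nil ω x y) : P167.Q.Cn Q.ea Q.eb P167.Q.nil ω' x y := by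
  obtain ⟨D, h1, h2⟩ := WSupx.wit0 ω x y hc
  exact h2 ω' fun v hv => h v (h1 v hv)

theorem key (hr : P167.Q.T_rat) {r : ℝ} (r0 : 0 < r) (S : Finset Sq) (ξ η : Cf)
    (h : ∀ A : Finset Sq, ∀ e ∈ S,
      P167.Q.Cn Q.ea Q.eb P167.Q.nil (P167.Q.cf S ξ A) (Q.ea e) (Q.eb e) ↔
        P167.Q.Cn Q.ea Q.eb P167.Q.nil (P167.Q.cf S η A) (Q.ea e) (Q.eb e)) :
    ∃ k : ℝ, 0 < k ∧ ∀ A ⊆ S, P167.Q.wt r Q.ea Q.eb P167.Q.nil S (P167.Q.cf S ξ A) =
      k * P167.Q.wt r Q.ea Q.eb P167.Q.nil S (P167.Q.cf S η A) := by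
  refine ⟨P167.Q.wt r Q.ea Q.eb P167.Q.nil S (P167.Q.cf S ξ ∅) /
      P167.Q.wt r Q.ea Q.eb P167.Q.nil S (P167.Q.cf S η ∅),
    div_pos (WStepx.wt_pos r0 _ _ _ _ _) (WStepx.wt_pos r0 _ _ _ _ _), fun A => ?_⟩
  induction A using Finset.induction_on with
  | empty => exact fun _ => (div_mul_cancel₀ _ (WStepx.wt_pos r0 _ _ _ _ _).ne').symm
  | insert e A he ih =>
    intro hA
    have heT : e ∈ S := hA (mem_insert_self _ _)
    have h0 : P167.Q.cf S ξ A e = false := by simp [P167.Q.cf, heT, he]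
    have h1 : P167.Q.cf S η A e = false := by simp [P167.Q.cf, heT, he]
    rw [WStepx.cf_ins S ξ A heT, WStepx.cf_ins S η A heT,
      (hr _ _ Q.ea Q.eb P167.Q.nil S _ e heT h0).2.2 r r0,
      (hr _ _ Q.ea Q.eb P167.Q.nil S _ e heT h1).2.2 r r0, ih ((subset_insert _ _).trans hA),
      mul_assoc]
    by_cases hc : P167.Q.Cn Q.ea Q.eb P167.Q.nil (P167.Q.cf S ξ A) (Q.ea e) (Q.eb e)
    · rw [if_pos hc, if_pos ((h A e heT).1 hc)]
    · rw [if_neg hc, if_neg fun h' => hc ((h A e heT).2 h')]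

end NWitx

theorem n_wit (hr : P167.Q.T_rat) : V_wit := by
  intro r S₀ r0
  obtain ⟨D, hD, hw⟩ := WSupx.wall S₀
  refine ⟨D, hD, fun ξ F hξ lF => ?_⟩
  obtain ⟨k, hk, h⟩ := NWitx.key hr r0 S₀ ξ (fun _ => true) fun A e he =>
    ⟨NWitx.mono fun v hv => by
      unfold P167.Q.cf at hv ⊢
      by_cases hv0 : v ∈ S₀
      · rw [if_pos hv0] at hv ⊢
        exact hv
      · rw [if_neg hv0],
    hw _ _ (fun v hv => by
        unfold P167.Q.cf
        rw [if_neg (disjoint_left.mp hD hv)]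
        exact hξ v hv)
      (fun v hv => by
        unfold P167.Q.cf
        rw [if_neg hv])
      (fun v hv => by
        unfold P167.Q.cf
        rw [if_pos hv, if_pos hv]) e he⟩
  have e1 : P167.Q.sm S₀ ξ (fun ω => P167.Q.wt r Q.ea Q.eb P167.Q.nil S₀ ω * F ω) =
      k * P167.Q.sm S₀ (fun _ => true)
        (fun ω => P167.Q.wt r Q.ea Q.eb P167.Q.nil S₀ ω * F ω) := by
    unfold P167.Q.sm
    rw [mul_sum]
    refine sum_congr rfl fun A hA => ?_
    have hF : F (P167.Q.cf S₀ ξ A) = F (P167.Q.cf S₀ (fun _ => true) A) :=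
      lF _ _ fun v hv => by
        unfold P167.Q.cf
        rw [if_pos hv, if_pos hv]
    beta_reduce
    rw [h A (mem_powerset.1 hA), hF, mul_assoc]
  have e2 : P167.Q.sm S₀ ξ (P167.Q.wt r Q.ea Q.eb P167.Q.nil S₀) =
      k * P167.Q.sm S₀ (fun _ => true) (P167.Q.wt r Q.ea Q.eb P167.Q.nil S₀) := by
    unfold P167.Q.sm
    rw [mul_sum]
    exact sum_congr rfl fun A hA => h A (mem_powerset.1 hA)
  unfold P167.Q.fx P167.Q.ex
  rw [e1, e2, mul_div_mul_left _ _ hk.ne']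

end Vale.Agent.P167Q.W.N
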